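import Vale.Agent.P200.Betti.Defs

/-!
Counting cells and comparing Betti numbers through ranks.
-/

namespace Vale.Agent.P200.Betti

open Finset

variable {n : ℕ}

lemma mem_level {Δ : Finset (Finset (Fin n))} {d : ℕ} {S : Finset (Fin n)} :
    S ∈ level Δ d ↔ S ∈ Δ ∧ S.card = d := mem_filter

/-- A cell is a choice of positions and of a member of the level. -/
lemma card_cell (Δ : Finset (Finset (Fin n))) (p d : ℕ) :
    Fintype.card (Cell Δ p d) = n.choose p * (level Δ d).card := by
  classical
  rw [Fintype.card_of_subtype ((univ.powersetCard p) ×ˢ level Δ d)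
    (fun x => by simp [mem_level]), card_product, card_powersetCard,
    card_univ, Fintype.card_fin]

@[simp] lemma rk_zero (F : Type*) [Field F] (Δ : Finset (Finset (Fin n))) (d : ℕ) :
    rk F Δ 0 d = 0 := rfl

/-- Larger ranks and equal levels give smaller Betti numbers. -/
lemma hdim_le_of_rk_le {F F' : Type*} [Field F] [Field F'] {Δ Δ' : Finset (Finset (Fin n))}
    (hlev : ∀ d, (level Δ d).card = (level Δ' d).card)
    (hrk : ∀ p d, rk F' Δ' (p + 1) d ≤ rk F Δ (p + 1) d) (p d : ℕ) :
    hdim F Δ p d ≤ hdim F' Δ' p d := by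
  have hrk' : ∀ p d, rk F' Δ' p d ≤ rk F Δ p d := by
    intro p d
    cases p with
    | zero => simp
    | succ p => exact hrk p d
  simp only [hdim, card_cell, hlev]
  have h1 := hrk' p d
  have h2 := hrk' (p + 1) (d - 1)
  split_ifs <;> omega

end Vale.Agent.P200.Betti
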