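import Vale.Agent.P200.Betti.Degenerate

/-!
The Betti numbers of an ideal containing a regular sequence of quadrics are bounded by those of a
simplicial complex with the same levels.
-/

namespace Vale.Agent.P200.Betti

open MvPolynomial Module
open scoped TensorProduct
open Vale.Agent.P200.Quad (Quo quoDeg mkA act piece wgt leadSets mem_leadSets card_leadSets
  finrank_quoDeg finrank_span_one_tmul card_nsf wgt_insert tmul_mem_piece jbar)

universe u

variable {K : Type u} [Field K] {n : ℕ}

set_option maxHeartbeats 800000 in
/-- The bound through the ranks, with the levels of the Hilbert function. -/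
theorem exists_rank_bound_pos (hn : 0 < n) {f : Fin n → MvPolynomial (Fin n) K}
    (hf : ∀ i, (f i).IsHomogeneous 2) (hreg : RegList ⊥ (List.ofFn f))
    {I : Ideal (MvPolynomial (Fin n) K)} (hI : HomogI I) (hfI : ∀ i, f i ∈ I) :
    ∃ Δ : Finset (Finset (Fin n)), IsDown Δ ∧
      (∀ d, (level Δ d).card + finrank K (degPart d I) =
        finrank K (homogeneousSubmodule (Fin n) K d)) ∧
      ∀ p d, rk K Δ (p + 1) d ≤ rkI I (p + 1) d := by
  classical
  obtain ⟨D, _, _, g, z, a, ha, hanti, hsq, hpol, E, hE⟩ := Quad.exists_factorisation hn hf hreg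
  have hlist : List.ofFn f = (List.finRange n).map f := List.ofFn_eq_map
  have hIf : HomogI (Ideal.span (Set.range f)) := by
    have := homogI_ofList' (L := List.ofFn f) fun q hq => by
      obtain ⟨i, rfl⟩ := List.mem_ofFn.1 hq
      exact ⟨2, two_pos, hf i⟩
    convert this using 1
    exact congrArg Ideal.span (Set.ext fun x => by simp [List.mem_ofFn])
  have hquo : ∀ d, finrank K (quoDeg f d) = n.choose d := fun d => by
    have := finrank_quoDeg f rfl hf (List.finRange n) (List.nodup_finRange n)
      (List.mem_finRange) (hlist ▸ hreg) d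
    simpa using this
  obtain ⟨b, hb, hbpiece⟩ := exists_basis (D := D) hanti ha hsq hpol hE hIf hquo
  choose P hP hP' using fun d => exists_proj (K := K) (D := D) (f := f) hIf d
  set U : Submodule D (D ⊗[K] Quo f) := idealSpan f I with hUdef
  have hUd : ∀ d, U ⊓ piece f d = _ ∧ ∀ v ∈ U, P d v ∈ U := fun d =>
    idealSpan_inf_piece f hI (P d) (hP d) (hP' d)
  -- the complex
  set Δ := nonLead b U
  have hΔdown : IsDown Δ := by
    intro S hS S' hsub
    rw [mem_nonLead] at hS ⊢
    intro hS'
    apply hS
    have hup : ∀ k S₀, k ∉ S₀ → S₀ ∈ leadSets b U S₀.card →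
        insert k S₀ ∈ leadSets b U (insert k S₀).card := by
      intro k S₀ hk h₀
      rw [Finset.card_insert_of_notMem hk]
      obtain ⟨v, hv, hl⟩ := (mem_leadSets b).mp h₀
      have hε : ∀ k' S, k' ∉ S → act f g k' (b S) = ((sgn k' S : ℤ) : D) • b (insert k' S) := by
        intro k' S hk'
        rw [hb, hb, act_sortWord hanti hk']
        exact (Int.cast_smul_eq_zsmul D _ _).symm
      have hρU : act f g k v ∈ U := by
        rw [act_eq]
        exact sum_mem fun i _ => lmul_idealSpan f I i (rmul_idealSpan f I (g k i) hv.1)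
      have hrepr := Quad.repr_map (b := b)
        (fun k' S h => by rw [hb]; exact act_sortWord_mem hanti ha hsq hpol h) hε k v
      refine (mem_leadSets b).mpr ⟨act f g k v, ⟨hρU, (Quad.mem_degPart b).mpr ?_⟩, ?_, ?_⟩
      · intro R hR
        rw [hrepr] at hR
        by_cases hkR : k ∈ R
        · rw [if_pos hkR] at hR
          have := (Quad.mem_degPart b).mp hv.2 _ (left_ne_zero_of_mul hR)
          rw [Finset.card_erase_of_mem hkR] at this
          have := Finset.card_pos.mpr ⟨k, hkR⟩
          omega
        · simp [hkR] at hR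
      · rw [hrepr, if_pos (Finset.mem_insert_self k S₀), Finset.erase_insert hk]
        refine mul_ne_zero hl.1 ?_
        rcases neg_one_pow_eq_or ℤ (S₀.filter (fun i => i < k)).card with h | h <;>
          simp [sgn, h]
      · intro R hR
        rw [hrepr] at hR
        by_cases hkR : k ∈ R
        · rw [if_pos hkR] at hR
          have := hl.2 _ (left_ne_zero_of_mul hR)
          rw [← Finset.insert_erase hkR, wgt_insert (Finset.notMem_erase k R), wgt_insert hk]
          omega
        · simp [hkR] at hR
    have key : ∀ A : Finset (Fin n), Disjoint S' A → S' ∪ A ∈ leadSets b U (S' ∪ A).card := by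
      intro A
      induction A using Finset.induction_on with
      | empty => intro _; simpa using hS'
      | insert a A ha' ih =>
        intro hd
        rw [Finset.disjoint_insert_right] at hd
        rw [Finset.union_insert]
        exact hup _ _ (by simp [hd.1, ha']) (ih hd.2)
    simpa [Finset.union_sdiff_of_subset hsub] using key (S \ S') Finset.disjoint_sdiff
  have hfin : ∀ d, FiniteDimensional K (quoDeg f d) := Quad.finite_quoDeg f
  have hlev : ∀ d, (level Δ d).card + finrank K (degPart d I) =
      finrank K (homogeneousSubmodule (Fin n) K d) := by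
    intro d
    have hjb : jbar f I d ≤ quoDeg f d := Submodule.map_mono inf_le_left
    have := Submodule.finiteDimensional_of_le hjb
    have hlead : (leadSets b U d).card = finrank K (jbar f I d) := by
      rw [card_leadSets, Quad.degPart, hbpiece, (hUd d).1, finrank_span_one_tmul]
    have hsplit : (level Δ d).card + (leadSets b U d).card = n.choose d := by
      have h := Finset.card_filter_add_card_filter_not
        (s := (Finset.univ : Finset (Fin n)).powersetCard d) (fun S => S ∈ leadSets b U d)
      rw [Finset.card_powersetCard, Finset.card_univ, Fintype.card_fin] at h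
      have h1 : level Δ d = (Finset.univ.powersetCard d).filter fun S => S ∉ leadSets b U d := by
        ext S
        simp only [mem_level, Δ, mem_nonLead, Finset.mem_filter, Finset.mem_powersetCard,
          Finset.subset_univ, true_and]
        constructor
        · rintro ⟨h1, h2⟩; exact ⟨h2, h2 ▸ h1⟩
        · rintro ⟨h1, h2⟩; exact ⟨h1 ▸ h2, h1⟩
      have h2 : leadSets b U d =
          (Finset.univ.powersetCard d).filter fun S => S ∈ leadSets b U d := by
        ext S
        simp only [Finset.mem_filter, Finset.mem_powersetCard, Finset.subset_univ, true_and]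
        exact ⟨fun h => ⟨Quad.card_of_mem b h, h⟩, fun h => h.2⟩
      rw [h1]
      conv_lhs => arg 2; rw [h2]
      omega
    have h1 := finrank_map_add_ker (mkA f) (degPart d I)
    have hle : Ideal.span (Set.range f) ≤ I := Ideal.span_le.2 fun x ⟨i, hi⟩ => hi ▸ hfI i
    have h2 : degPart d I ⊓ LinearMap.ker (mkA f) = degPart d (Ideal.span (Set.range f)) := by
      ext u
      simp only [Submodule.mem_inf, mem_degPart, LinearMap.mem_ker]
      constructor
      · rintro ⟨⟨h1, -⟩, h2⟩; exact ⟨h1, Ideal.Quotient.eq_zero_iff_mem.1 h2⟩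
      · rintro ⟨h1, h2⟩; exact ⟨⟨h1, hle h2⟩, Ideal.Quotient.eq_zero_iff_mem.2 h2⟩
    have h3 := Quad.finrank_degPart_quadrics f rfl hf (List.finRange n) (List.nodup_finRange n)
      List.mem_finRange (hlist ▸ hreg) d
    rw [h2] at h1
    rw [Fintype.card_fin] at h3
    have key : ∀ L A B C N H T : ℕ, L + T = C → T = A → A + B = N → B + C = H →
        L + N = H := by omega
    exact key _ _ _ _ _ _ _ hsplit hlead h1 h3
  -- coordinates on the quotient
  obtain ⟨co, hco⟩ := exists_coord b U (fun u hu hne => by
    obtain ⟨R, hR⟩ : ∃ R, b.repr u R ≠ 0 := by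
      by_contra h
      push Not at h
      exact hne (b.repr.injective (Finsupp.ext fun R => by simp [h R]))
    have hPu : ∀ R', b.repr (P R.card u) R' = if R'.card = R.card then b.repr u R' else 0 := by
      intro R'
      conv_lhs => rw [← b.sum_repr u]
      have hterm : ∀ S, P R.card (b S) = if S.card = R.card then b S else 0 := fun S =>
        hP _ _ _ (hb S ▸ sortWord_mem_piece (f := f) hanti S)
      simp only [map_sum, map_smul, hterm, Finsupp.finsetSum_apply]
      rw [Finset.sum_eq_single R']
      · split_ifs <;> simp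
      · intro S _ hS
        split_ifs <;> simp [hS]
      · simp
    refine ⟨R.card, P R.card u, (hUd _).2 u hu, fun h0 => hR ?_, fun R' hR' => ?_⟩
    · have := hPu R
      rw [h0] at this
      simpa using this.symm
    · rw [hPu] at hR'
      split_ifs at hR' with h
      · exact ⟨h, hR'⟩
      · exact absurd rfl hR')
  refine ⟨Δ, hΔdown, hlev, fun p d => ?_⟩
  -- operators on the quotient
  let W := (D ⊗[K] Quo f) ⧸ U
  let L : Fin n → W →ₗ[D] W := fun i => U.mapQ U (lmul f i) (lmul_idealSpan f I i)
  let R' : D → W →ₗ[D] W := fun x => U.mapQ U (rmul f x) (rmul_idealSpan f I x)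
  let R : Fin n → Fin n → W →ₗ[D] W := fun k i => R' (g k i)
  let Q : Fin n → Fin n → W →ₗ[D] W := fun i m => R' (E i m)
  have hR' : ∀ x v, R' x (U.mkQ v) = U.mkQ (rmul f x v) := fun x v => rfl
  have hL' : ∀ i v, L i (U.mkQ v) = U.mkQ (lmul f i v) := fun i v => rfl
  have hR0 : ∀ v, rmul f (0 : D) v = 0 := fun v => (rmulHom f v).map_zero
  have hanti' : ∀ k m, k ≠ m → ∀ i j x, R k i (R m j x) + R m j (R k i x) = 0 := by
    intro k m hkm i j x
    obtain ⟨v, rfl⟩ := U.mkQ_surjective x
    simp only [R, hR', rmul_rmul]
    rw [← map_add, ← rmul_add, hanti m k (Ne.symm hkm) j i, hR0, map_zero]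
  have hLR : ∀ j k i x, L j (R k i x) = R k i (L j x) := by
    intro j k i x
    obtain ⟨v, rfl⟩ := U.mkQ_surjective x
    simp only [R, hR', hL', lmul_rmul]
  have hGE : ∀ k m, ∑ i, g k i * E i m = if k = m then 1 else 0 := by
    have h1 : (Matrix.of E : Matrix (Fin n) (Fin n) D) * Matrix.of g = 1 := by
      ext i j; simp [Matrix.mul_apply, Matrix.one_apply, hE]
    have h2 := mul_eq_one_comm.1 h1
    intro k m
    have h3 := congrFun (congrFun h2 k) m
    simpa [Matrix.mul_apply, Matrix.one_apply] using h3
  have hQ : ∀ m k x, ∑ i, Q i m (R k i x) = if k = m then x else 0 := by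
    intro m k x
    obtain ⟨v, rfl⟩ := U.mkQ_surjective x
    simp only [Q, R, hR', rmul_rmul]
    have hs : ∑ i, rmul f (g k i * E i m) v = rmul f (∑ i, g k i * E i m) v :=
      (map_sum (rmulHom f v) _ _).symm
    rw [← map_sum, hs, hGE]
    split_ifs with h
    · congr 1
      clear hs
      induction v using TensorProduct.induction_on with
      | zero => simp
      | tmul e q => simp [rmul_tmul]
      | add y y' hy hy' => rw [map_add, hy, hy']
    · rw [hR0, map_zero]
  set ρ : Fin n → W →ₗ[D] W := fun k => ∑ i, (L i).comp (R k i) with hρdef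
  have hρ : ∀ k v, ρ k (U.mkQ v) = U.mkQ (act f g k v) := by
    intro k v
    simp only [ρ, R, LinearMap.sum_apply, LinearMap.comp_apply, hR', hL', act_eq, map_sum]
  -- the chains over the division ring
  let θ : MvPolynomial (Fin n) K →ₗ[K] W :=
    (U.mkQ.restrictScalars K).comp ((TensorProduct.mk K D (Quo f) 1).comp (mkA f))
  have hθ : ∀ u, θ u = U.mkQ ((1 : D) ⊗ₜ[K] mkA f u) := fun u => rfl
  let Θ : Kos K n →ₗ[K] (Finset (Fin n) → W) :=
    LinearMap.pi fun T => θ.comp (LinearMap.proj T)
  have hΘkos : ∀ v, Θ (kos v) = kosD L (Θ v) := by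
    intro v
    funext T
    simp only [Θ, LinearMap.pi_apply, LinearMap.comp_apply, LinearMap.proj_apply, kos_apply,
      kosD_apply, map_sum, map_zsmul]
    refine Finset.sum_congr rfl fun k _ => ?_
    rw [hθ, hθ]
    simp only [hL', lmul_tmul,
      show mkA f (X k * v (insert k T)) = mkA f (X k) * mkA f (v (insert k T)) from
        map_mul (Ideal.Quotient.mkₐ K (Ideal.span (Set.range f))) _ _]
  have hΘI : inI I ≤ LinearMap.ker Θ := by
    intro v hv
    rw [LinearMap.mem_ker]
    funext T
    show θ (v T) = 0
    rw [hθ, Submodule.mkQ_apply, Submodule.Quotient.mk_eq_zero]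
    exact Submodule.subset_span ⟨v T, hv T trivial, rfl⟩
  let C : Submodule D (Finset (Fin n) → W) :=
    Submodule.span D (Θ '' (chains (K := K) (n := n) (p + 1) d : Set (Kos K n)))
  -- the comparison
  let vec : Cell Δ (p + 1) d → (Finset (Fin n) → W) := fun x =>
    freeD ρ (Pi.single x.1.1 (U.mkQ (b x.1.2)))
  have hC : ∀ w : Finset (Fin n) → W, (∀ T, T.card ≠ p + 1 → w T = 0) →
      (∀ T, w T ∈ (piece f d).map U.mkQ) → w ∈ C := by
    intro w h1 h2
    rw [← Finset.univ_sum_single w]
    refine sum_mem fun T _ => ?_
    by_cases hT : T.card = p + 1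
    · obtain ⟨y, hy, hyw⟩ := h2 T
      rw [← hyw]
      clear hyw
      induction hy using Submodule.span_induction with
      | mem y hy =>
        obtain ⟨_, ⟨u, hu, rfl⟩, rfl⟩ := hy
        refine Submodule.subset_span ⟨Pi.single T u, ?_, ?_⟩
        · rw [SetLike.mem_coe, mem_chains]
          intro T'
          by_cases h : T' = T
          · subst h; simp only [Pi.single_eq_same]; exact ⟨hu, fun h => absurd hT h⟩
          · simp only [Pi.single_eq_of_ne h]
            exact ⟨isHomogeneous_zero _ _ _, fun _ => trivial⟩
        · funext T'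
          show θ (Pi.single (M := fun _ => MvPolynomial (Fin n) K) T u T') = _
          by_cases h : T' = T
          · subst h; simp [hθ]
          · simp [Pi.single_eq_of_ne h]
      | zero => simp
      | add y y' _ _ hy hy' => rw [map_add, Pi.single_add]; exact add_mem hy hy'
      | smul r y _ hy => rw [map_smul, Pi.single_smul]; exact Submodule.smul_mem _ _ hy
    · rw [h1 T hT, Pi.single_zero]; exact zero_mem _
  have hcard1 : (bd K Δ p d).rank ≤ finrank D (Submodule.span D (Set.range vec)) := by
    refine rank_le_finrank_span (bd K Δ p d) vec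
      (fun y => (co y.1.2).comp (LinearMap.proj y.1.1))
      (fun x => wgt x.1.1 + wgt x.1.2) (fun y => wgt y.1.1 + wgt y.1.2) ?_ ?_
    · intro y x hyx
      obtain ⟨k, hk, hk'⟩ := Finset.exists_ne_zero_of_sum_ne_zero hyx
      obtain ⟨hkT, hkS⟩ := Finset.mem_sdiff.1 hk
      obtain ⟨⟨h1, h2⟩, -⟩ := ite_ne_right_iff.1 hk'
      show wgt y.1.1 + wgt y.1.2 = wgt x.1.1 + wgt x.1.2
      rw [h1, h2, wgt_insert hkS]
      have := wgt_insert (Finset.notMem_erase k x.1.1)
      rw [Finset.insert_erase hkT] at this
      omega
    · rintro ⟨⟨T', S'⟩, hT', hS', hS'd⟩ ⟨⟨T, S⟩, hT, hS, hSd⟩ hw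
      simp only [LinearMap.comp_apply, LinearMap.proj_apply, vec, freeD_apply] at hw ⊢
      rw [map_sum, bd, map_sum]
      simp only
      have hterm : ∀ k ∈ T'ᶜ, co S' (ρ k ((Pi.single T (U.mkQ (b S)) :
          Finset (Fin n) → W) (insert k T'))) =
          if k ∈ T ∧ T' = T.erase k then
            (if k ∈ S then 0 else (sgn k S : D) * co S' (U.mkQ (b (insert k S)))) else 0 := by
        intro k hk
        rw [Finset.mem_compl] at hk
        by_cases h : insert k T' = T
        · subst h
          rw [Pi.single_eq_same, hρ, hb, if_pos ⟨Finset.mem_insert_self k T',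
            (Finset.erase_insert hk).symm⟩]
          by_cases hkS : k ∈ S
          · rw [if_pos hkS, act_sortWord_mem hanti ha hsq hpol hkS, map_zero, map_zero]
          · rw [if_neg hkS, act_sortWord hanti hkS, map_zsmul, map_zsmul, ← hb,
              zsmul_eq_mul]
        · rw [Pi.single_eq_of_ne h, map_zero, map_zero, if_neg]
          rintro ⟨h1, rfl⟩
          exact h (Finset.insert_erase h1)
      rw [Finset.sum_congr rfl hterm]
      refine (Finset.sum_subset (Finset.subset_univ _) fun k _ hk => ?_).trans ?_
      · rw [Finset.mem_compl, not_not] at hk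
        rw [if_neg]
        rintro ⟨-, rfl⟩
        exact Finset.notMem_erase k T hk
      rw [← Finset.sum_subset (Finset.subset_univ (T \ S)) (fun k _ hk => ?_)]
      · refine Finset.sum_congr rfl fun k hk => ?_
        obtain ⟨hkT, hkS⟩ := Finset.mem_sdiff.1 hk
        by_cases h : T' = T.erase k
        · rw [if_pos ⟨hkT, h⟩, if_neg hkS]
          have hle : wgt (insert k S) ≤ wgt S' := by
            subst h
            have := wgt_insert (Finset.notMem_erase k T)
            rw [Finset.insert_erase hkT] at this
            rw [wgt_insert hkS]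
            omega
          obtain ⟨hin, hout⟩ := hco S' hS' (insert k S)
          by_cases hm : insert k S ∈ nonLead b U
          · rw [hin hm]
            by_cases he : insert k S = S'
            · rw [if_pos he, if_pos ⟨h, he.symm⟩, mul_one]; simp
            · rw [if_neg he, if_neg (fun h' => he h'.2.symm), mul_zero, map_zero]
          · rw [hout hm hle, mul_zero, if_neg, map_zero]
            exact fun h' => hm (h'.2 ▸ hS')
        · rw [if_neg (fun h' => h h'.2), if_neg (fun h' => h h'.1), map_zero]
      · rw [Finset.mem_sdiff, not_and, not_not] at hk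
        by_cases hkT : k ∈ T
        · rw [if_pos (hk hkT)]; exact ite_self 0
        · rw [if_neg fun h => hkT h.1]
  have hchange : ∀ x : Cell Δ (p + 1) d,
      change R (Pi.single x.1.1 (U.mkQ (b x.1.2))) ∈ C := by
    intro x
    obtain ⟨⟨T, S⟩, hT, -, hSd⟩ := x
    refine hC _ (fun T' hT' => ?_) fun T' => ?_
    · refine word'_eq_zero (p := p + 1) (fun V hV => Pi.single_eq_of_ne ?_ _) _ _ (by simpa using hT')
      rintro rfl; exact hV hT
    · refine word'_mem ?_ (fun V => ?_) _ _
      · rintro k i _ ⟨y, hy, rfl⟩
        exact ⟨rmul f (g k i) y, rmul_piece f _ hy, (hR' _ _).symm⟩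
      · by_cases h : V = T
        · subst h
          rw [Pi.single_eq_same]
          exact Submodule.mem_map_of_mem (hSd ▸ hb S ▸ sortWord_mem_piece (f := f) hanti S)
        · rw [Pi.single_eq_of_ne h]; exact zero_mem _
  have hfinC : ((chains (K := K) (n := n) (p + 1) d).map (Θ.comp kos)) =
      (((chains (p + 1) d).map ((inI I).mkQ.comp kos)).map ((inI I).liftQ Θ hΘI)) := by
    rw [← Submodule.map_comp, ← LinearMap.comp_assoc, Submodule.liftQ_mkQ]
  have hspan : C.map (kosD L) =
      Submodule.span D (((chains (p + 1) d).map (Θ.comp kos) : Submodule K _) : Set _) := by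
    rw [Submodule.map_span, Submodule.map_coe, Set.image_image]
    refine congrArg (Submodule.span D) (Set.image_congr' fun v => ?_)
    simp [hΘkos]
  have hsub : (Submodule.span D (Set.range vec)).map (change R) ≤ C.map (kosD L) := by
    rw [Submodule.map_span, Submodule.span_le]
    rintro _ ⟨_, ⟨x, rfl⟩, rfl⟩
    exact ⟨_, hchange x, kosD_change hanti' L hLR _⟩
  have : Module.Finite K ((chains (K := K) (n := n) (p + 1) d).map (Θ.comp kos)) := inferInstance
  have : FiniteDimensional D (C.map (kosD L)) := by
    rw [hspan]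
    obtain ⟨s, hs⟩ := (Module.Finite.iff_fg.1 this : Submodule.FG _)
    have e : Submodule.span D (((chains (p + 1) d).map (Θ.comp kos) : Submodule K _) : Set _) =
        Submodule.span D (s : Set (Finset (Fin n) → W)) := by
      rw [← hs]
      exact Submodule.span_span_of_tower K D _
    rw [e]
    exact FiniteDimensional.span_finset D s
  calc rk K Δ (p + 1) d = (bd K Δ p d).rank := rfl
    _ ≤ finrank D (Submodule.span D (Set.range vec)) := hcard1
    _ = finrank D ((Submodule.span D (Set.range vec)).map (change R)) :=
      (Submodule.equivMapOfInjective _ (change_injective hanti' Q hQ) _).finrank_eq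
    _ ≤ finrank D (C.map (kosD L)) := Submodule.finrank_mono hsub
    _ ≤ finrank K ((chains (p + 1) d).map (Θ.comp kos)) := by
      rw [hspan]; exact finrank_span_le_finrank _
    _ ≤ rkI I (p + 1) d := by
      rw [hfinC]; exact Submodule.finrank_map_le _ _

/-- The bound for every number of variables. -/
theorem exists_rank_bound {f : Fin n → MvPolynomial (Fin n) K} (hf : ∀ i, (f i).IsHomogeneous 2)
    (hreg : RegList ⊥ (List.ofFn f)) {I : Ideal (MvPolynomial (Fin n) K)} (hI : HomogI I)
    (hfI : ∀ i, f i ∈ I) :
    ∃ Δ : Finset (Finset (Fin n)), IsDown Δ ∧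
      (∀ d, (level Δ d).card + finrank K (degPart d I) =
        finrank K (homogeneousSubmodule (Fin n) K d)) ∧
      ∀ p d, rk K Δ (p + 1) d ≤ rkI I (p + 1) d := by
  rcases Nat.eq_zero_or_pos n with rfl | hn
  · obtain ⟨T, hT⟩ := Quad.artinian K 0 f hf hreg
    obtain ⟨hT, -⟩ := hT I hfI
    refine ⟨outside (T I), isDown_outside fun d e he v => (hT d).2.2.2 e he v, fun d => ?_,
      fun p d => ?_⟩
    · rw [← (hT d).2.1]
      exact card_level_outside K (hT d).1 (hT d).2.2.1
    · refine le_trans (Matrix.rank_le_card_width _) ?_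
      rw [card_cell]
      simp
  · exact exists_rank_bound_pos hn hf hreg hI hfI

end Vale.Agent.P200.Betti
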