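import Vale.Agent.P200.Betti.CombinRank

/-!
A shifted complex has no larger Betti numbers than the lexicographic one with the same face numbers.
-/

namespace Vale.Agent.P200.Betti

open Finset

variable {n : ℕ}

namespace Combin

open Shift

/-- The sets of size `d` outside `Δ`. -/
def nonFaces (Δ : Finset (Finset (Fin n))) (d : ℕ) : Finset (Finset (Fin n)) :=
  (univ.powersetCard d) \ Δ

lemma mem_nonFaces {Δ : Finset (Finset (Fin n))} {d : ℕ} {S : Finset (Fin n)} :
    S ∈ nonFaces Δ d ↔ S.card = d ∧ S ∉ Δ := by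
  simp [nonFaces, mem_powersetCard]

lemma card_nonFaces (Δ : Finset (Finset (Fin n))) (d : ℕ) :
    (nonFaces Δ d).card + (level Δ d).card = n.choose d := by
  have e : nonFaces Δ d = univ.powersetCard d \ level Δ d := by
    ext S
    simp only [mem_nonFaces, mem_sdiff, mem_powersetCard, mem_level]
    simp only [subset_univ, true_and, not_and]
    constructor
    · exact fun h => ⟨h.1, fun h' => absurd h' h.2⟩
    · exact fun h => ⟨h.1, fun h' => h.2 h' h.1⟩
  have hsub : level Δ d ⊆ univ.powersetCard d := fun S hS =>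
    mem_powersetCard.2 ⟨subset_univ _, (mem_level.1 hS).2⟩
  rw [e, card_sdiff_add_card_eq_card hsub, card_powersetCard, card_univ, Fintype.card_fin]

lemma isStable_nonFaces {Δ : Finset (Finset (Fin n))} (hs : IsShifted Δ) (d : ℕ) :
    IsStable d (nonFaces Δ d) := by
  refine ⟨fun A hA => (mem_nonFaces.1 hA).1, fun A hA j hj i hij hi => ?_⟩
  obtain ⟨hc, hn⟩ := mem_nonFaces.1 hA
  have hi' : i ∉ A.erase j := fun h => hi (mem_of_mem_erase h)
  refine mem_nonFaces.2 ⟨?_, fun h => hn ?_⟩
  · rw [card_insert_of_notMem hi', card_erase_add_one hj, hc]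
  · have h2 := hs _ h i (mem_insert_self _ _) j hij (by simp [hij.ne'])
    rwa [erase_insert hi', insert_erase hj] at h2

lemma isSegment_nonFaces {Δ : Finset (Finset (Fin n))} (h : IsLexCompl Δ) (d : ℕ) :
    IsSegment d (nonFaces Δ d) := by
  refine ⟨fun A hA => (mem_nonFaces.1 hA).1, fun A B hA hAB hB => ?_⟩
  obtain ⟨hBc, hBn⟩ := mem_nonFaces.1 hB
  exact mem_nonFaces.2 ⟨hA, fun hAΔ => hBn (h A B (hA.trans hBc.symm) hAB hAΔ)⟩

lemma isShifted_of_isLexCompl {Δ : Finset (Finset (Fin n))} (h : IsLexCompl Δ) : IsShifted Δ := by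
  intro S hS i hi j hij hj
  refine h S _ ?_ ⟨i, hi, by simp [hij.ne], fun l hl => ?_⟩ hS
  · rw [card_insert_of_notMem (fun hh => hj (mem_of_mem_erase hh)), card_erase_add_one hi]
  · simp [hl.ne, (hl.trans hij).ne]

open Classical in
/-- The cells that no matching touches, the positions being different from the monomial. -/
noncomputable def crit (Δ : Finset (Finset (Fin n))) (p d : ℕ) : Finset (Pair n) :=
  univ.filter fun z => InCell Δ p d z ∧ Below z.2 z.1 ∧ ¬ Src Δ z

open Classical in
/-- A non-face and positions above it. -/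
noncomputable def overPairs (p : ℕ) (M : Finset (Finset (Fin n))) : Finset (Pair n) :=
  (univ ×ˢ M).filter fun z => z.1.card = p ∧ Below z.2 z.1

open Classical in
/-- A non-face and positions below it, one fewer than `p`. -/
noncomputable def underPairs (p : ℕ) (M : Finset (Finset (Fin n))) : Finset (Pair n) :=
  (univ ×ˢ M).filter fun z => z.1.card + 1 = p ∧ Below z.1 z.2

open Classical in
/-- The number of cells not touched by the matching, in terms of the non-faces. -/
lemma card_crit_add {Δ : Finset (Finset (Fin n))} (hd : IsDown Δ) (p d : ℕ) :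
    (crit Δ p d).card + (overPairs p (nonFaces Δ d)).card =
      (underPairs p (nonFaces Δ (d + 1))).card := by
  set X : Finset (Pair n × Fin n) := univ.filter fun x =>
    x.1.1.card = p ∧ x.1.2.card = d ∧ Wit x.2 x.1.2 x.1.1 ∧ insert x.2 x.1.2 ∉ Δ
  have h1 : X.image Prod.fst = crit Δ p d ∪ overPairs p (nonFaces Δ d) := by
    ext z
    simp only [mem_image, mem_union, X, mem_filter, mem_univ, true_and, crit, overPairs,
      mem_product, mem_nonFaces]
    constructor
    · rintro ⟨⟨w, m⟩, ⟨hT, hS, hw, hn⟩, rfl⟩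
      by_cases hSΔ : w.2 ∈ Δ
      · refine Or.inl ⟨⟨hT, hSΔ, hS⟩, ⟨m, hw⟩, ?_⟩
        rintro ⟨m', hw', hm'⟩
        exact hn (hw.unique hw' ▸ hm')
      · exact Or.inr ⟨⟨hS, hSΔ⟩, hT, m, hw⟩
    · rintro (⟨⟨hT, -, hS⟩, ⟨m, hw⟩, hns⟩ | ⟨⟨hS, hSΔ⟩, hT, m, hw⟩)
      · exact ⟨(z, m), ⟨hT, hS, hw, fun h => hns ⟨m, hw, h⟩⟩, rfl⟩
      · exact ⟨(z, m), ⟨hT, hS, hw, fun h => hSΔ (hd _ h _ (subset_insert _ _))⟩, rfl⟩
  have h1inj : Set.InjOn Prod.fst (X : Set (Pair n × Fin n)) := by
    rintro ⟨z, m⟩ hz ⟨z', m'⟩ hz' (rfl : z = z')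
    have h := (mem_filter.1 hz).2.2.2.1
    have h' := (mem_filter.1 hz').2.2.2.1
    simp only at h h'
    rw [h.unique h']
  have h2 : X.image (fun x => (x.1.1.erase x.2, insert x.2 x.1.2)) =
      underPairs p (nonFaces Δ (d + 1)) := by
    ext z
    simp only [mem_image, X, mem_filter, mem_univ, true_and, underPairs, mem_product, mem_nonFaces]
    constructor
    · rintro ⟨⟨w, m⟩, ⟨hT, hS, hw, hn⟩, rfl⟩
      refine ⟨⟨by simp [card_insert_of_notMem hw.2.1, hS], hn⟩,
        by rw [card_erase_add_one hw.1, hT], m, mem_insert_self _ _, notMem_erase _ _, ?_⟩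
      intro k hk
      simp [hk.ne', hw.2.2 k hk]
    · rintro ⟨⟨hc, hn⟩, hT, m, hw⟩
      refine ⟨((insert m z.1, z.2.erase m), m), ⟨?_, ?_, ?_, ?_⟩, ?_⟩
      · rw [card_insert_of_notMem hw.2.1, hT]
      · rw [card_erase_of_mem hw.1, hc]; omega
      · exact ⟨mem_insert_self _ _, notMem_erase _ _, fun k hk => by simp [hk.ne', hw.2.2 k hk]⟩
      · rwa [insert_erase hw.1]
      · simp [erase_insert hw.2.1, insert_erase hw.1]
  have h2inj : Set.InjOn (fun x : Pair n × Fin n => (x.1.1.erase x.2, insert x.2 x.1.2))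
      (X : Set (Pair n × Fin n)) := by
    rintro ⟨z, m⟩ hz ⟨z', m'⟩ hz' h
    have hw := (mem_filter.1 hz).2.2.2.1
    have hw' := (mem_filter.1 hz').2.2.2.1
    simp only [Prod.mk.injEq] at h hw hw'
    have e : Wit m (z.1.erase m) (insert m z.2) :=
      ⟨mem_insert_self _ _, notMem_erase _ _, fun k hk => by simp [hk.ne', hw.2.2 k hk]⟩
    have e' : Wit m' (z'.1.erase m') (insert m' z'.2) :=
      ⟨mem_insert_self _ _, notMem_erase _ _, fun k hk => by simp [hk.ne', hw'.2.2 k hk]⟩
    rw [h.1, h.2] at e
    obtain rfl := e.unique e'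
    refine Prod.ext (Prod.ext ?_ ?_) rfl
    · rw [← insert_erase hw.1, h.1, insert_erase hw'.1]
    · rw [← erase_insert hw.2.1, h.2, erase_insert hw'.2.1]
  have hdis : Disjoint (crit Δ p d) (overPairs p (nonFaces Δ d)) := by
    rw [disjoint_left]
    intro z hz hz'
    simp only [crit, mem_filter, mem_univ, true_and] at hz
    simp only [overPairs, mem_filter, mem_product, mem_nonFaces] at hz'
    exact hz'.1.2.2 hz.1.2.1
  rw [← card_union_of_disjoint hdis, ← h1, ← h2, card_image_of_injOn h1inj,
    card_image_of_injOn h2inj]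

open Classical in
/-- The Betti number of a shifted complex counts the untouched cells. -/
lemma hdim_eq_crit (F : Type*) [Field F] {Δ : Finset (Finset (Fin n))} (hd : IsDown Δ)
    (hs : IsShifted Δ) (p d : ℕ) :
    hdim F Δ p d = (crit Δ p d).card + if p = d then (level Δ d).card else 0 := by
  set all := (univ : Finset (Pair n)).filter (InCell Δ p d) with hall
  set eqs := all.filter fun z => z.1 = z.2 with heqs
  set tgt := all.filter fun z => Below z.1 z.2 with htgt
  have hcard : Fintype.card (Cell Δ p d) = all.card :=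
    Fintype.card_of_subtype all fun x => by simp [hall, InCell]
  have hsplit : all.card = (srcs Δ p d).card + (crit Δ p d).card + eqs.card + tgt.card := by
    have e1 : srcs Δ p d ∪ crit Δ p d = all.filter fun z => Below z.2 z.1 := by
      ext z
      simp only [srcs, crit, hall, mem_union, mem_filter, mem_univ, true_and]
      refine ⟨?_, fun h => ?_⟩
      · rintro (⟨hc, m, hw, -⟩ | ⟨hc, hb, -⟩)
        · exact ⟨hc, m, hw⟩
        · exact ⟨hc, hb⟩
      · by_cases hsr : Src Δ z
        · exact Or.inl ⟨h.1, hsr⟩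
        · exact Or.inr ⟨h.1, h.2, hsr⟩
    have e2 : Disjoint (srcs Δ p d) (crit Δ p d) := by
      rw [disjoint_left]
      intro z hz hz'
      simp only [srcs, crit, mem_filter, mem_univ, true_and] at hz hz'
      exact hz'.2.2 hz.2
    rw [← card_union_of_disjoint e2, e1, ← card_filter_add_card_filter_not
      (s := all) (fun z => Below z.2 z.1), Nat.add_assoc]
    congr 1
    rw [← card_union_of_disjoint]
    · congr 1
      ext z
      simp only [heqs, htgt, mem_union, mem_filter]
      constructor
      · intro h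
        by_cases he : z.2 = z.1
        · exact Or.inl ⟨h.1, he.symm⟩
        · exact Or.inr ⟨h.1, (below_or_below he).resolve_left h.2⟩
      · rintro (⟨h, he⟩ | ⟨h, hb⟩)
        · exact ⟨h, fun hb => hb.ne he.symm⟩
        · exact ⟨h, fun hb' => (hb.trans hb').ne rfl⟩
    · rw [disjoint_left]
      intro z hz hz'
      exact (mem_filter.1 hz').2.ne (mem_filter.1 hz).2
  have htgtcard : tgt.card = if d = 0 then 0 else (srcs Δ (p + 1) (d - 1)).card := by
    rcases d with _ | d
    · rw [if_pos rfl, card_eq_zero, htgt, filter_eq_empty_iff]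
      rintro z hz ⟨m, hw⟩
      have := (mem_filter.1 hz).2.2.2
      simp [card_eq_zero.1 this] at hw
      exact absurd hw.1 (notMem_empty _)
    rw [if_neg d.succ_ne_zero, Nat.add_sub_cancel]
    symm
    refine card_bij (fun z hz => (z.1.erase ((mem_filter.1 hz).2.2.choose),
        insert ((mem_filter.1 hz).2.2.choose) z.2)) ?_ ?_ ?_
    · intro z hz
      obtain ⟨hw, hm⟩ := (mem_filter.1 hz).2.2.choose_spec
      exact mem_filter.2 ⟨mem_filter.2 ⟨mem_univ _, inCell_partner (mem_filter.1 hz).2.1 hw hm⟩,
        _, mem_insert_self _ _, notMem_erase _ _, fun k hk => by simp [hk.ne', hw.2.2 k hk]⟩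
    · intro z hz z' hz' h
      have hw := (mem_filter.1 hz).2.2.choose_spec.1
      have hw' := (mem_filter.1 hz').2.2.choose_spec.1
      set m := (mem_filter.1 hz).2.2.choose
      set m' := (mem_filter.1 hz').2.2.choose
      simp only [Prod.mk.injEq] at h
      have e : Wit m (z.1.erase m) (insert m z.2) :=
        ⟨mem_insert_self _ _, notMem_erase _ _, fun k hk => by simp [hk.ne', hw.2.2 k hk]⟩
      have e' : Wit m' (z'.1.erase m') (insert m' z'.2) :=
        ⟨mem_insert_self _ _, notMem_erase _ _, fun k hk => by simp [hk.ne', hw'.2.2 k hk]⟩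
      rw [h.1, h.2] at e
      have hm : m = m' := e.unique e'
      rw [hm] at h hw
      exact Prod.ext (by rw [← insert_erase hw.1, h.1, insert_erase hw'.1])
        (by rw [← erase_insert hw.2.1, h.2, erase_insert hw'.2.1])
    · intro y hy
      obtain ⟨m, hw⟩ := (mem_filter.1 hy).2
      have hc := (mem_filter.1 (mem_filter.1 hy).1).2
      have hz : (insert m y.1, y.2.erase m) ∈ srcs Δ (p + 1) d := by
        refine mem_filter.2 ⟨mem_univ _, ⟨?_, hd _ hc.2.1 _ (erase_subset _ _), ?_⟩,
          m, ⟨mem_insert_self _ _, notMem_erase _ _, fun k hk => ?_⟩, ?_⟩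
        · rw [card_insert_of_notMem hw.2.1, hc.1]
        · rw [card_erase_of_mem hw.1, hc.2.2]; omega
        · simp [hk.ne', hw.2.2 k hk]
        · rw [insert_erase hw.1]; exact hc.2.1
      refine ⟨_, hz, ?_⟩
      have hspec := (mem_filter.1 hz).2.2.choose_spec.1
      have hcan : Wit m (y.2.erase m) (insert m y.1) :=
        ⟨mem_insert_self _ _, notMem_erase _ _, fun k hk => by simp [hk.ne', hw.2.2 k hk]⟩
      have e : (mem_filter.1 hz).2.2.choose = m := hspec.unique hcan
      simp [e, erase_insert hw.2.1, insert_erase hw.1]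
  have heqcard : eqs.card = if p = d then (level Δ d).card else 0 := by
    split_ifs with h
    · subst h
      refine card_bij' (fun z _ => z.2) (fun S _ => (S, S)) ?_ ?_ ?_ ?_
      · intro z hz
        have hc := (mem_filter.1 (mem_filter.1 hz).1).2
        exact mem_level.2 ⟨hc.2.1, hc.2.2⟩
      · intro S hS
        obtain ⟨h1, h2⟩ := mem_level.1 hS
        exact mem_filter.2 ⟨mem_filter.2 ⟨mem_univ _, h2, h1, h2⟩, rfl⟩
      · intro z hz
        exact Prod.ext (mem_filter.1 hz).2.symm rfl
      · intros; rfl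
    · rw [card_eq_zero, heqs, filter_eq_empty_iff]
      intro z hz he
      obtain ⟨h1, -, h2⟩ := (mem_filter.1 hz).2
      exact h (by rw [← h1, he, h2])
  unfold hdim
  rw [hcard, hsplit, rk_eq_card hd hs, htgtcard, heqcard]
  by_cases h0 : d = 0
  · simp only [h0, if_true]
    omega
  · simp only [if_neg h0]
    rw [rk_eq_card hd hs]
    omega

open Classical in
lemma card_overPairs (p : ℕ) (M : Finset (Finset (Fin n))) :
    (overPairs p M).card =
      ∑ T ∈ (univ : Finset (Finset (Fin n))).filter (fun T => T.card = p),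
        (M.filter fun B => Below B T).card := by
  rw [overPairs, card_filter, sum_product, sum_filter]
  refine sum_congr rfl fun T _ => ?_
  by_cases h : T.card = p
  · rw [if_pos h, card_filter]; exact sum_congr rfl fun B _ => by simp [h]
  · rw [if_neg h]; exact sum_eq_zero fun B _ => by simp [h]

open Classical in
lemma card_underPairs (p : ℕ) (M : Finset (Finset (Fin n))) :
    (underPairs p M).card =
      ∑ T ∈ (univ : Finset (Finset (Fin n))).filter (fun T => T.card + 1 = p),
        (M.filter fun A => Below T A).card := by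
  rw [underPairs, card_filter, sum_product, sum_filter]
  refine sum_congr rfl fun T _ => ?_
  by_cases h : T.card + 1 = p
  · rw [if_pos h, card_filter]; exact sum_congr rfl fun B _ => by simp [h]
  · rw [if_neg h]; exact sum_eq_zero fun B _ => by simp [h]

end Combin

open Combin in
/-- A shifted complex has no larger Betti numbers than the lexicographic one with the same face
numbers. -/
theorem hdim_le_lex (F : Type*) [Field F] {Δ Δl : Finset (Finset (Fin n))} (h1 : IsDown Δ)
    (h2 : IsShifted Δ) (h3 : IsDown Δl) (h4 : IsLexCompl Δl)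
    (h5 : ∀ d, (level Δl d).card = (level Δ d).card) :
    ∀ p d, hdim F Δ p d ≤ hdim F Δl p d := by
  classical
  intro p d
  have hsl := isShifted_of_isLexCompl h4
  have hM : ∀ e, (nonFaces Δl e).card = (nonFaces Δ e).card := fun e => by
    have := card_nonFaces Δl e
    have := card_nonFaces Δ e
    have := h5 e
    omega
  have hover : (overPairs p (nonFaces Δl d)).card ≤ (overPairs p (nonFaces Δ d)).card := by
    rw [card_overPairs, card_overPairs]
    refine sum_le_sum fun T _ => ?_
    exact card_filter_segment_le (isStable_nonFaces h2 d) (isSegment_nonFaces h4 d) (hM d)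
      (fun B => Below B T) fun A B _ _ hBA hA => hBA.trans hA
  have hunder : (underPairs p (nonFaces Δ (d + 1))).card ≤
      (underPairs p (nonFaces Δl (d + 1))).card := by
    rw [card_underPairs, card_underPairs]
    refine sum_le_sum fun T _ => ?_
    have h := card_filter_segment_le (isStable_nonFaces h2 (d + 1)) (isSegment_nonFaces h4 (d + 1))
      (hM _) (fun A => ¬ Below T A) fun A B _ _ hBA hA hB => hA (hB.trans hBA)
    have e := card_filter_add_card_filter_not (s := nonFaces Δ (d + 1)) (fun A => Below T A)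
    have e' := card_filter_add_card_filter_not (s := nonFaces Δl (d + 1)) (fun A => Below T A)
    have := hM (d + 1)
    have h' : ((nonFaces Δl (d + 1)).filter fun A => ¬ Below T A).card ≤
        ((nonFaces Δ (d + 1)).filter fun A => ¬ Below T A).card := by convert h
    omega
  rw [hdim_eq_crit F h1 h2, hdim_eq_crit F h3 hsl, h5]
  have := card_crit_add h1 p d
  have := card_crit_add h3 p d
  omega

end Vale.Agent.P200.Betti
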