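import Vale.Agent.P200.Betti.Defs

/-!
Among strongly stable families of sets of one size, the lexicographic segment meets every initial
segment of the colexicographic order least often.
-/

namespace Vale.Agent.P200.Betti.Combin

open Finset

variable {n : ℕ}

/-- `m` is the last place where `A` and `T` differ, and it belongs to `T`. -/
def Wit (m : Fin n) (A T : Finset (Fin n)) : Prop :=
  m ∈ T ∧ m ∉ A ∧ ∀ k, m < k → (k ∈ A ↔ k ∈ T)

/-- `A` is strictly below `T` in colexicographic order. -/
def Below (A T : Finset (Fin n)) : Prop := ∃ m, Wit m A T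

lemma Wit.unique {A T : Finset (Fin n)} {m m' : Fin n} (h : Wit m A T) (h' : Wit m' A T) :
    m = m' := by
  rcases lt_trichotomy m m' with hlt | heq | hlt
  · exact absurd ((h.2.2 m' hlt).2 h'.1) h'.2.1
  · exact heq
  · exact absurd ((h'.2.2 m hlt).2 h.1) h.2.1

lemma Wit.not_wit {A T : Finset (Fin n)} {m m' : Fin n} (h : Wit m A T) : ¬ Wit m' T A := by
  intro h'
  rcases lt_trichotomy m m' with hlt | heq | hlt
  · exact h'.2.1 ((h.2.2 m' hlt).1 h'.1)
  · exact h'.2.1 (heq ▸ h.1)
  · exact h.2.1 ((h'.2.2 m hlt).1 h.1)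

lemma below_or_below {A T : Finset (Fin n)} (h : A ≠ T) : Below A T ∨ Below T A := by
  classical
  have hne : (univ.filter fun k => ¬(k ∈ A ↔ k ∈ T)).Nonempty := by
    by_contra hc
    refine h (Finset.ext fun k => ?_)
    by_contra hk
    exact hc ⟨k, mem_filter.2 ⟨mem_univ k, hk⟩⟩
  obtain ⟨m, hm, hmax⟩ := exists_max_image _ id hne
  have hrest : ∀ k, m < k → (k ∈ A ↔ k ∈ T) := fun k hk => by
    by_contra hc
    exact absurd hk (not_lt.2 (hmax k (mem_filter.2 ⟨mem_univ k, hc⟩)))
  have hm' := (mem_filter.1 hm).2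
  by_cases hA : m ∈ A
  · exact Or.inr ⟨m, hA, fun hT => hm' (iff_of_true hA hT), fun k hk => (hrest k hk).symm⟩
  · exact Or.inl ⟨m, by_contra fun hT => hm' (iff_of_false hA hT), hA, hrest⟩

lemma Below.ne {A T : Finset (Fin n)} (h : Below A T) : A ≠ T := by
  rintro rfl
  obtain ⟨m, h1, h2, -⟩ := h
  exact h2 h1

lemma Below.trans {A B C : Finset (Fin n)} (h1 : Below A B) (h2 : Below B C) : Below A C := by
  obtain ⟨m, a1, a2, a3⟩ := h1
  obtain ⟨l, b1, b2, b3⟩ := h2
  rcases lt_trichotomy m l with h | h | h
  · exact ⟨l, b1, fun hl => b2 ((a3 l h).1 hl),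
      fun k hk => (a3 k (h.trans hk)).trans (b3 k hk)⟩
  · exact absurd (h ▸ a1) b2
  · exact ⟨m, (b3 m h).1 a1, a2, fun k hk => (a3 k hk).trans (b3 k (h.trans hk))⟩

/-- A colexicographic initial segment among the sets of size `k`. -/
def IsColexDown (k : ℕ) (I : Finset (Fin n) → Prop) : Prop :=
  ∀ A B : Finset (Fin n), A.card = k → B.card = k → Below B A → I A → I B

lemma lexBefore_trans {A B C : Finset (Fin n)} (h1 : LexBefore A B) (h2 : LexBefore B C) :
    LexBefore A C := by
  obtain ⟨m, a1, a2, a3⟩ := h1
  obtain ⟨l, b1, b2, b3⟩ := h2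
  rcases lt_trichotomy m l with h | h | h
  · exact ⟨m, a1, fun hm => a2 ((b3 m h).2 hm),
      fun k hk => (a3 k hk).trans (b3 k (hk.trans h))⟩
  · exact absurd (h ▸ b1) a2
  · exact ⟨l, (a3 l h).2 b1, b2, fun k hk => (a3 k (hk.trans h)).trans (b3 k hk)⟩

lemma lexBefore_irrefl (A : Finset (Fin n)) : ¬ LexBefore A A := by
  rintro ⟨m, h1, h2, -⟩
  exact h2 h1

lemma lexBefore_total {A B : Finset (Fin n)} (h : A ≠ B) : LexBefore A B ∨ LexBefore B A := by
  classical
  have hne : (univ.filter fun k => ¬(k ∈ A ↔ k ∈ B)).Nonempty := by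
    by_contra hc
    refine h (Finset.ext fun k => ?_)
    by_contra hk
    exact hc ⟨k, mem_filter.2 ⟨mem_univ k, hk⟩⟩
  obtain ⟨m, hm, hmin⟩ := exists_min_image _ id hne
  have hrest : ∀ k, k < m → (k ∈ A ↔ k ∈ B) := fun k hk => by
    by_contra hc
    exact absurd hk (not_lt.2 (hmin k (mem_filter.2 ⟨mem_univ k, hc⟩)))
  have hm' := (mem_filter.1 hm).2
  by_cases hA : m ∈ A
  · exact Or.inl ⟨m, hA, fun hB => hm' (iff_of_true hA hB), hrest⟩
  · exact Or.inr ⟨m, by_contra fun hB => hm' (iff_of_false hA hB), hA,
      fun k hk => (hrest k hk).symm⟩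

/-- A lexicographic segment of the sets of size `k`. -/
def IsSegment (k : ℕ) (L : Finset (Finset (Fin n))) : Prop :=
  (∀ A ∈ L, A.card = k) ∧ ∀ A B : Finset (Fin n), A.card = k → LexBefore A B → B ∈ L → A ∈ L

/-- A strongly stable family of sets of size `k`. -/
def IsStable (k : ℕ) (M : Finset (Finset (Fin n))) : Prop :=
  (∀ A ∈ M, A.card = k) ∧
    ∀ A ∈ M, ∀ j ∈ A, ∀ i, i < j → i ∉ A → insert i (A.erase j) ∈ M

lemma exists_segment (k : ℕ) :
    ∀ m : ℕ, m ≤ n.choose k → ∃ L : Finset (Finset (Fin n)), IsSegment k L ∧ L.card = m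
  | 0, _ => ⟨∅, ⟨fun A hA => by simp at hA, fun A B _ _ hB => by simp at hB⟩, rfl⟩
  | m + 1, hm => by
    classical
    obtain ⟨L, hL, hc⟩ := exists_segment k m (by omega)
    set R := (univ.powersetCard k : Finset (Finset (Fin n))) \ L
    have hsub : L ⊆ univ.powersetCard k := fun A hA =>
      mem_powersetCard.2 ⟨subset_univ _, hL.1 A hA⟩
    have hR : R.Nonempty := by
      rw [← card_pos, card_sdiff_of_subset hsub, card_powersetCard, card_univ, Fintype.card_fin]
      omega
    obtain ⟨u, hu, hmin⟩ :=
      exists_min_image R (fun x => (R.filter fun y => LexBefore y x).card) hR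
    obtain ⟨hu1, hu2⟩ := mem_sdiff.1 hu
    refine ⟨insert u L, ⟨fun A hA => ?_, fun A B hA hAB hB => ?_⟩, ?_⟩
    · rcases mem_insert.1 hA with rfl | h
      · exact (mem_powersetCard.1 hu1).2
      · exact hL.1 A h
    · rcases mem_insert.1 hB with rfl | h
      · by_contra hc'
        rw [mem_insert, not_or] at hc'
        have hAR : A ∈ R :=
          mem_sdiff.2 ⟨mem_powersetCard.2 ⟨subset_univ _, hA⟩, hc'.2⟩
        refine absurd (hmin A hAR) (not_le.2 (card_lt_card ((ssubset_iff_of_subset ?_).2
          ⟨A, mem_filter.2 ⟨hAR, hAB⟩, fun h => lexBefore_irrefl A (mem_filter.1 h).2⟩)))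
        exact fun y hy => mem_filter.2
          ⟨(mem_filter.1 hy).1, lexBefore_trans (mem_filter.1 hy).2 hAB⟩
      · exact mem_insert_of_mem (hL.2 A B hA hAB h)
    · rw [card_insert_of_notMem hu2, hc]

lemma IsSegment.subset_of_card_le {k : ℕ} {L L' : Finset (Finset (Fin n))} (h : IsSegment k L)
    (h' : IsSegment k L') (hc : L.card ≤ L'.card) : L ⊆ L' := by
  intro A hA
  by_contra hA'
  have hss : L' ⊆ L := by
    intro B hB
    by_cases e : B = A
    · exact e ▸ hA
    rcases lexBefore_total e with h1 | h1
    · exact h.2 B A (h'.1 B hB) h1 hA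
    · exact absurd (h'.2 A B (h.1 A hA) h1 hB) hA'
  exact hA' (eq_of_subset_of_card_le hss hc ▸ hA)

lemma IsSegment.stable {k : ℕ} {L : Finset (Finset (Fin n))} (h : IsSegment k L) :
    IsStable k L := by
  refine ⟨h.1, fun A hA j hj i hij hi => ?_⟩
  refine h.2 _ A ?_ ⟨i, mem_insert_self _ _, hi, fun l hl => ?_⟩ hA
  · have h1 : i ∉ A.erase j := fun h => hi (mem_of_mem_erase h)
    rw [card_insert_of_notMem h1, card_erase_add_one hj, h.1 A hA]
  · simp [ne_of_lt hl, ne_of_lt (hl.trans hij)]

/-! ### The last element -/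

/-- The same set among one more element. -/
def up0 (S : Finset (Fin n)) : Finset (Fin (n + 1)) := S.map Fin.castSuccEmb

/-- The set with the last element added. -/
def up1 (S : Finset (Fin n)) : Finset (Fin (n + 1)) := insert (Fin.last n) (up0 S)

@[simp] lemma castSucc_mem_up0 {k : Fin n} {S : Finset (Fin n)} :
    k.castSucc ∈ up0 S ↔ k ∈ S := mem_map' Fin.castSuccEmb

@[simp] lemma last_notMem_up0 {S : Finset (Fin n)} : Fin.last n ∉ up0 S := by
  simp [up0, Fin.castSucc_ne_last]

@[simp] lemma castSucc_mem_up1 {k : Fin n} {S : Finset (Fin n)} :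
    k.castSucc ∈ up1 S ↔ k ∈ S := by
  simp [up1, Fin.castSucc_ne_last]

@[simp] lemma last_mem_up1 {S : Finset (Fin n)} : Fin.last n ∈ up1 S := mem_insert_self _ _

@[simp] lemma card_up0 (S : Finset (Fin n)) : (up0 S).card = S.card := card_map _

@[simp] lemma card_up1 (S : Finset (Fin n)) : (up1 S).card = S.card + 1 := by
  rw [up1, card_insert_of_notMem last_notMem_up0, card_up0]

lemma up_cases (A : Finset (Fin (n + 1))) : ∃ S, A = up0 S ∨ A = up1 S := by
  classical
  refine ⟨univ.filter fun k => k.castSucc ∈ A, ?_⟩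
  by_cases h : Fin.last n ∈ A
  · refine Or.inr (Finset.ext fun k => ?_)
    induction k using Fin.lastCases with
    | last => simp [h]
    | cast k => simp
  · refine Or.inl (Finset.ext fun k => ?_)
    induction k using Fin.lastCases with
    | last => simp [h]
    | cast k => simp

lemma up0_injective : Function.Injective (up0 (n := n)) := fun S T h => by
  ext k
  rw [← castSucc_mem_up0 (S := S), h, castSucc_mem_up0]

lemma up1_injective : Function.Injective (up1 (n := n)) := fun S T h => by
  ext k
  rw [← castSucc_mem_up1 (S := S), h, castSucc_mem_up1]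

lemma up0_ne_up1 (S T : Finset (Fin n)) : up0 S ≠ up1 T := fun h =>
  last_notMem_up0 (S := S) (h ▸ last_mem_up1)

lemma below_up0_up1 (S T : Finset (Fin n)) : Below (up0 S) (up1 T) :=
  ⟨Fin.last n, last_mem_up1, last_notMem_up0, fun k hk => absurd hk (not_lt.2 (Fin.le_last k))⟩

lemma below_up0 {S T : Finset (Fin n)} (h : Below S T) : Below (up0 S) (up0 T) := by
  obtain ⟨m, h1, h2, h3⟩ := h
  refine ⟨m.castSucc, by simpa, by simpa, fun k hk => ?_⟩
  induction k using Fin.lastCases with
  | last => simp
  | cast k => simpa using h3 k (Fin.castSucc_lt_castSucc_iff.1 hk)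

lemma below_up1 {S T : Finset (Fin n)} (h : Below S T) : Below (up1 S) (up1 T) := by
  obtain ⟨m, h1, h2, h3⟩ := h
  refine ⟨m.castSucc, by simpa, by simpa, fun k hk => ?_⟩
  induction k using Fin.lastCases with
  | last => simp
  | cast k => simpa using h3 k (Fin.castSucc_lt_castSucc_iff.1 hk)

lemma lexBefore_up0 {S T : Finset (Fin n)} (h : LexBefore S T) : LexBefore (up0 S) (up0 T) := by
  obtain ⟨m, h1, h2, h3⟩ := h
  refine ⟨m.castSucc, by simpa, by simpa, fun k hk => ?_⟩
  induction k using Fin.lastCases with
  | last => simp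
  | cast k => simpa using h3 k (Fin.castSucc_lt_castSucc_iff.1 hk)

lemma lexBefore_up1 {S T : Finset (Fin n)} (h : LexBefore S T) : LexBefore (up1 S) (up1 T) := by
  obtain ⟨m, h1, h2, h3⟩ := h
  refine ⟨m.castSucc, by simpa, by simpa, fun k hk => ?_⟩
  induction k using Fin.lastCases with
  | last => simp
  | cast k => simpa using h3 k (Fin.castSucc_lt_castSucc_iff.1 hk)

/-- The members without the last element. -/
def lo (M : Finset (Finset (Fin (n + 1)))) : Finset (Finset (Fin n)) :=
  univ.filter fun S => up0 S ∈ M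

/-- The members with the last element, which is removed. -/
def hi (M : Finset (Finset (Fin (n + 1)))) : Finset (Finset (Fin n)) :=
  univ.filter fun S => up1 S ∈ M

@[simp] lemma mem_lo {M : Finset (Finset (Fin (n + 1)))} {S : Finset (Fin n)} :
    S ∈ lo M ↔ up0 S ∈ M := by simp [lo]

@[simp] lemma mem_hi {M : Finset (Finset (Fin (n + 1)))} {S : Finset (Fin n)} :
    S ∈ hi M ↔ up1 S ∈ M := by simp [hi]

lemma card_filter_split (M : Finset (Finset (Fin (n + 1)))) (I : Finset (Fin (n + 1)) → Prop)
    [DecidablePred I] :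
    (M.filter I).card = ((lo M).filter fun S => I (up0 S)).card +
      ((hi M).filter fun S => I (up1 S)).card := by
  have e : M.filter I = ((lo M).filter fun S => I (up0 S)).map ⟨up0, up0_injective⟩ ∪
      ((hi M).filter fun S => I (up1 S)).map ⟨up1, up1_injective⟩ := by
    ext A
    obtain ⟨S, rfl | rfl⟩ := up_cases A
    · simp [fun T => (up0_ne_up1 S T).symm]
    · simp [fun T => up0_ne_up1 T S]
  rw [e, card_union_of_disjoint, card_map, card_map]
  rw [disjoint_left]
  intro A h1 h2
  simp only [mem_map, Function.Embedding.coeFn_mk] at h1 h2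
  obtain ⟨S, -, rfl⟩ := h1
  obtain ⟨T, -, h⟩ := h2
  exact up0_ne_up1 S T h.symm

lemma card_split (M : Finset (Finset (Fin (n + 1)))) :
    M.card = (lo M).card + (hi M).card := by
  have := card_filter_split M (fun _ => True)
  simpa using this

lemma IsStable.lo {k : ℕ} {M : Finset (Finset (Fin (n + 1)))} (h : IsStable k M) :
    IsStable k (lo M) := by
  refine ⟨fun A hA => by simpa using h.1 _ (mem_lo.1 hA), fun A hA j hj i hij hi => ?_⟩
  have := h.2 _ (mem_lo.1 hA) j.castSucc (by simpa) i.castSucc (by simpa) (by simpa)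
  rw [mem_lo]
  simpa [up0, map_insert, map_erase] using this

lemma IsStable.hi {k : ℕ} {M : Finset (Finset (Fin (n + 1)))} (h : IsStable (k + 1) M) :
    IsStable k (hi M) := by
  refine ⟨fun A hA => by simpa using h.1 _ (mem_hi.1 hA), fun A hA j hj i hij hi => ?_⟩
  have := h.2 _ (mem_hi.1 hA) j.castSucc (by simpa) i.castSucc (by simpa) (by simpa)
  rw [mem_hi]
  convert this using 1
  ext l
  induction l using Fin.lastCases with
  | last => simp [(Fin.castSucc_ne_last j).symm]
  | cast l => simp

lemma IsSegment.lo {k : ℕ} {L : Finset (Finset (Fin (n + 1)))} (h : IsSegment k L) :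
    IsSegment k (lo L) := by
  refine ⟨fun A hA => by simpa using h.1 _ (mem_lo.1 hA), fun A B hA hAB hB => ?_⟩
  exact mem_lo.2 (h.2 _ _ (by simpa) (lexBefore_up0 hAB) (mem_lo.1 hB))

lemma IsSegment.hi {k : ℕ} {L : Finset (Finset (Fin (n + 1)))} (h : IsSegment (k + 1) L) :
    IsSegment k (hi L) := by
  refine ⟨fun A hA => by simpa using h.1 _ (mem_hi.1 hA), fun A B hA hAB hB => ?_⟩
  exact mem_hi.2 (h.2 _ _ (by simpa) (lexBefore_up1 hAB) (mem_hi.1 hB))

/-- The pairs of a member and a place above all its elements. -/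
def tips (B : Finset (Finset (Fin n))) : Finset (Fin n × Finset (Fin n)) :=
  (univ ×ˢ B).filter fun x => ∀ a ∈ x.2, a < x.1

lemma card_tips (B : Finset (Finset (Fin n))) :
    (tips B).card = ∑ j, (B.filter fun S => ∀ a ∈ S, a < j).card := by
  simp only [tips, card_filter, sum_product]

lemma card_le_choose {k : ℕ} {M : Finset (Finset (Fin n))} (h : ∀ A ∈ M, A.card = k) :
    M.card ≤ n.choose k := by
  have : M ⊆ univ.powersetCard k := fun A hA => mem_powersetCard.2 ⟨subset_univ _, h A hA⟩
  simpa using card_le_card this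

open Classical in
/-- A lexicographic segment meets a colexicographic initial segment no more often than a strongly
stable family of the same size. -/
theorem card_filter_segment_le : ∀ {n k : ℕ} {M L : Finset (Finset (Fin n))},
    IsStable k M → IsSegment k L → L.card = M.card →
      ∀ I : Finset (Fin n) → Prop, IsColexDown k I → (L.filter I).card ≤ (M.filter I).card
  | 0, k, M, L, hM, hL, hc => fun I _ => by
    have : M = L := by
      have hh : ∀ S : Finset (Fin 0), S = ∅ := fun S => Finset.ext fun a => a.elim0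
      rcases M.eq_empty_or_nonempty with rfl | ⟨A, hA⟩
      · exact (card_eq_zero.1 (by simpa using hc)).symm
      · have hLne : L.Nonempty := card_pos.1 (hc ▸ card_pos.2 ⟨A, hA⟩)
        obtain ⟨B, hB⟩ := hLne
        ext S
        rw [hh S, ← hh A, iff_true_left hA]
        rw [hh A, ← hh B]
        exact hB
    rw [this]
  | n + 1, 0, M, L, hM, hL, hc => fun I _ => by
    have hh : ∀ {N : Finset (Finset (Fin (n + 1)))}, (∀ A ∈ N, A.card = 0) → N ⊆ {∅} :=
      fun h A hA => mem_singleton.2 (card_eq_zero.1 (h A hA))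
    have : M = L := by
      rcases subset_singleton_iff.1 (hh hM.1) with e | e <;>
        rcases subset_singleton_iff.1 (hh hL.1) with e' | e' <;> subst e <;> subst e' <;>
        simp_all
    rw [this]
  | n + 1, k + 1, M, L, hM, hL, hc => fun I hI => by
    have hsplit : (lo L).card + (hi L).card = (lo M).card + (hi M).card := by
      rw [← card_split, ← card_split, hc]
    -- the segment has the fewest members without the last element
    have hlo : (lo L).card ≤ (lo M).card := by
      by_cases hb : (hi M).card ≤ (hi L).card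
      · omega
      obtain ⟨L', hL', hL'c⟩ := exists_segment k (hi M).card (card_le_choose hM.hi.1)
      obtain ⟨u, hu, hu'⟩ : ∃ u ∈ L', u ∉ hi L :=
        exists_mem_notMem_of_card_lt_card (by omega)
      have htop : (lo L).card ≤ (tips L').card := by
        refine le_trans (card_le_card (fun X hX => ?_))
          (card_image_le (s := tips L') (f := fun x => insert x.1 x.2))
        have hXc : X.card = k + 1 := hL.lo.1 X hX
        have hXne : X.Nonempty := card_pos.1 (by omega)
        set x := X.max' hXne
        have hx : x ∈ X := max'_mem _ _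
        have hlt : ∀ a ∈ X.erase x, a < x := fun a ha =>
          lt_of_le_of_ne (le_max' _ _ (mem_of_mem_erase ha)) (ne_of_mem_erase ha)
        have hPc : (X.erase x).card = k := by rw [card_erase_of_mem hx, hXc]; omega
        refine mem_image.2 ⟨(x, X.erase x), mem_filter.2 ⟨mem_product.2 ⟨mem_univ _, ?_⟩, hlt⟩,
          insert_erase hx⟩
        by_cases he : X.erase x = u
        · exact he ▸ hu
        rcases lexBefore_total he with h1 | ⟨i, hiu, hiP, hbelow⟩
        · exact hL'.2 _ u hPc h1 hu
        exfalso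
        refine hu' (mem_hi.2 (hL.2 _ (up0 X) (by simp [hL'.1 u hu]) ?_ (mem_lo.1 hX)))
        have hix : i < x := by
          by_contra hcon
          have hsub : X.erase x ⊆ u.erase i := fun a ha => by
            have hai : a < i := lt_of_lt_of_le (hlt a ha) (not_lt.1 hcon)
            exact mem_erase.2 ⟨hai.ne, (hbelow a hai).2 ha⟩
          have h3 := card_le_card hsub
          rw [card_erase_of_mem hiu, hL'.1 u hu, hPc] at h3
          have h4 := hL'.1 u hu
          have h5 := card_pos.2 ⟨i, hiu⟩
          omega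
        refine ⟨i.castSucc, by simpa, ?_, fun l hl => ?_⟩
        · simp only [castSucc_mem_up0]
          exact fun hiX => hiP (mem_erase.2 ⟨hix.ne, hiX⟩)
        induction l using Fin.lastCases with
        | last => exact absurd hl (not_lt.2 (Fin.le_last _))
        | cast l =>
          have hl' : l < i := Fin.castSucc_lt_castSucc_iff.1 hl
          simp [hbelow l hl', (hl'.trans hix).ne]
      have hmid : (tips L').card ≤ (tips (hi M)).card := by
        rw [card_tips, card_tips]
        refine sum_le_sum fun j _ => ?_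
        refine le_trans (le_of_eq ?_) (le_trans (card_filter_segment_le hM.hi hL' hL'c (fun S => ∀ a ∈ S, a < j) ?_) (le_of_eq ?_))
        · congr
        rotate_left
        · congr
        rintro A B - - ⟨m, hm1, -, hm3⟩ hA a ha
        by_contra hcon
        have hma : m < a := lt_of_lt_of_le (hA m hm1) (not_lt.1 hcon)
        exact hcon (hA a ((hm3 a hma).1 ha))
      have hbot : (tips (hi M)).card ≤ (lo M).card := by
        refine card_le_card_of_injOn (fun x => insert x.1 x.2) (fun x hx => ?_) ?_
        · obtain ⟨hx1, hx2⟩ := mem_filter.1 hx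
          have hS := mem_hi.1 (mem_product.1 hx1).2
          rw [mem_coe, mem_lo]
          have hn : x.1 ∉ x.2 := fun h => lt_irrefl _ (hx2 _ h)
          have := hM.2 _ hS (Fin.last n) last_mem_up1 x.1.castSucc (Fin.castSucc_lt_last _)
            (by simpa using hn)
          convert this using 1
          ext l
          induction l using Fin.lastCases with
          | last => simp [(Fin.castSucc_ne_last x.1).symm]
          | cast l => simp [Fin.castSucc_ne_last]
        · intro x hx y hy h
          obtain ⟨-, hx2⟩ := mem_filter.1 hx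
          obtain ⟨-, hy2⟩ := mem_filter.1 hy
          replace h : insert x.1 x.2 = insert y.1 y.2 := h
          have e : x.1 = y.1 := by
            have h1 : x.1 ∈ insert y.1 y.2 := h ▸ mem_insert_self _ _
            have h2 : y.1 ∈ insert x.1 x.2 := h.symm ▸ mem_insert_self _ _
            rcases mem_insert.1 h1 with h1 | h1
            · exact h1
            rcases mem_insert.1 h2 with h2 | h2
            · exact h2.symm
            exact absurd (hx2 _ h2) (not_lt.2 (hy2 _ h1).le)
          refine Prod.ext e ?_
          have := congrArg (fun S => S.erase x.1) h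
          rwa [erase_insert (fun hh => lt_irrefl _ (hx2 _ hh)), e,
            erase_insert (fun hh => lt_irrefl _ (hy2 _ hh))] at this
      omega
    rw [card_filter_split L, card_filter_split M]
    by_cases hex : ∃ S : Finset (Fin n), S.card = k ∧ I (up1 S)
    · obtain ⟨S, hS, hIS⟩ := hex
      have hall : ∀ {N : Finset (Finset (Fin (n + 1)))}, (∀ A ∈ lo N, A.card = k + 1) →
          ((lo N).filter fun A => I (up0 A)) = lo N := fun hN =>
        filter_true_of_mem fun A hA => hI _ _ (by simp [hS]) (by simp [hN A hA])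
          (below_up0_up1 A S) hIS
      rw [hall hL.lo.1, hall hM.lo.1]
      obtain ⟨L', hL', hL'c⟩ := exists_segment k (hi M).card (card_le_choose hM.hi.1)
      have h1 := card_filter_segment_le hM.hi hL' hL'c (fun A => I (up1 A))
        (fun A B hA hB h => hI _ _ (by simp [hA]) (by simp [hB]) (below_up1 h))
      have hsub : L' ⊆ hi L := hL'.subset_of_card_le hL.hi (by omega)
      have h2 : ((hi L).filter fun A => I (up1 A)).card ≤
          (L'.filter fun A => I (up1 A)).card + (hi L \ L').card := by
        refine le_trans (card_le_card (fun A hA => ?_)) (card_union_le _ _)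
        obtain ⟨hA1, hA2⟩ := mem_filter.1 hA
        by_cases hA' : A ∈ L'
        · exact mem_union_left _ (mem_filter.2 ⟨hA', hA2⟩)
        · exact mem_union_right _ (mem_sdiff.2 ⟨hA1, hA'⟩)
      rw [card_sdiff_of_subset hsub] at h2
      have h3 := card_le_card hsub
      omega
    · push Not at hex
      have hnone : ∀ {N : Finset (Finset (Fin (n + 1)))}, (∀ A ∈ hi N, A.card = k) →
          ((hi N).filter fun A => I (up1 A)) = ∅ := fun hN =>
        filter_false_of_mem fun A hA => hex A (hN A hA)
      rw [hnone hL.hi.1, hnone hM.hi.1]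
      obtain ⟨L', hL', hL'c⟩ := exists_segment (k + 1) (lo M).card (card_le_choose hM.lo.1)
      have h1 := card_filter_segment_le hM.lo hL' hL'c (fun A => I (up0 A))
        (fun A B hA hB h => hI _ _ (by simp [hA]) (by simp [hB]) (below_up0 h))
      have h2 : ((lo L).filter fun A => I (up0 A)).card ≤
          (L'.filter fun A => I (up0 A)).card :=
        card_le_card (filter_subset_filter _ (hL.lo.subset_of_card_le hL' (by omega)))
      omega

end Vale.Agent.P200.Betti.Combin
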