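import Vale.Agent.P200.Betti.Shift
import Vale.Agent.P200.Betti.CombinCount

/-!
The ranks of the complex of a shifted family: match the last place where positions and monomial differ.
-/

namespace Vale.Agent.P200.Betti.Combin

open Finset Module Shift

variable {n : ℕ} {F : Type*} [Field F]

lemma sgn_erase_of_lt {k l : Fin n} {S : Finset (Fin n)} (hk : k ∈ S) (h : k < l) :
    sgn l (S.erase k) = - sgn l S := by
  unfold sgn
  have hm : k ∈ S.filter (fun i => i < l) := mem_filter.2 ⟨hk, h⟩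
  rw [filter_erase, ← card_erase_add_one hm, pow_succ]
  ring

lemma sgn_erase_of_gt {k l : Fin n} (S : Finset (Fin n)) (h : l < k) :
    sgn l (S.erase k) = sgn l S := by
  unfold sgn
  rw [filter_erase, erase_eq_of_notMem]
  exact fun hm => absurd (mem_filter.1 hm).2 (not_lt.2 h.le)

lemma sgn_swap {k l : Fin n} {S : Finset (Fin n)} (hk : k ∈ S) (hl : l ∈ S) (h : k ≠ l) :
    sgn k S * sgn l (S.erase k) + sgn l S * sgn k (S.erase l) = 0 := by
  rcases lt_or_gt_of_ne h with h | h
  · rw [sgn_erase_of_lt hk h, sgn_erase_of_gt S h]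
    ring
  · rw [sgn_erase_of_lt hl h, sgn_erase_of_gt S h]
    ring

lemma sgn_ne_zero (k : Fin n) (S : Finset (Fin n)) : (sgn k S : F) ≠ 0 := by
  simp [sgn]

lemma dd_dd (f : Pair n → F) : dd F (dd F f) = 0 := by
  funext y
  simp only [dd_apply, mul_sum, Pi.zero_apply]
  rw [sum_sigma']
  refine sum_involution (fun x _ => (⟨x.2, x.1⟩ : Σ _ : Fin n, Fin n)) ?_ ?_ ?_ ?_
  · rintro ⟨k, l⟩ hx
    simp only [mem_sigma, mem_sdiff, mem_erase, mem_insert, not_or] at hx
    obtain ⟨⟨hk, -⟩, ⟨hlk, hl⟩, -, -⟩ := hx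
    have h := congrArg (fun t : ℤ => (t : F)) (sgn_swap hk hl (Ne.symm hlk))
    simp only [Int.cast_add, Int.cast_mul, Int.cast_zero] at h
    simp only
    rw [Finset.insert_comm k l, erase_right_comm (a := l) (b := k)]
    linear_combination (f (insert l (insert k y.1), (y.2.erase k).erase l)) * h
  · rintro ⟨k, l⟩ hx - h
    simp only [mem_sigma, mem_sdiff, mem_erase] at hx
    exact hx.2.1.1 (congrArg Sigma.fst h)
  · rintro ⟨k, l⟩ hx
    simp only [mem_sigma, mem_sdiff, mem_erase, mem_insert, not_or] at hx ⊢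
    obtain ⟨⟨hk, hk'⟩, ⟨hlk, hl⟩, -, hl'⟩ := hx
    exact ⟨⟨hl, hl'⟩, ⟨Ne.symm hlk, hk⟩, Ne.symm hlk, hk'⟩
  · intros
    rfl

/-- A cell matched downwards. -/
def Src (Δ : Finset (Finset (Fin n))) (z : Pair n) : Prop :=
  ∃ m, Wit m z.2 z.1 ∧ insert m z.2 ∈ Δ

open Classical in
/-- The cells matched downwards in a position. -/
noncomputable def srcs (Δ : Finset (Finset (Fin n))) (p d : ℕ) : Finset (Pair n) :=
  univ.filter fun z => InCell Δ p d z ∧ Src Δ z

variable (F)

/-- The boundary of `Δ` on all pairs. -/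
noncomputable def bnd (Δ : Finset (Finset (Fin n))) : (Pair n → F) →ₗ[F] (Pair n → F) :=
  prj F Δ ∘ₗ dd F

/-- The function of one pair. -/
noncomputable def unit' (z : Pair n) : Pair n → F := Pi.single z 1

variable {F}

variable {Δ : Finset (Finset (Fin n))}

lemma unit'_self (z : Pair n) : unit' F z z = 1 := Pi.single_eq_same _ _

lemma unit'_of_ne {z w : Pair n} (h : w ≠ z) : unit' F z w = 0 := Pi.single_eq_of_ne h _

lemma bnd_unit_ne_zero {z y : Pair n} (h : bnd F Δ (unit' F z) y ≠ 0) :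
    y.2 ∈ Δ ∧ ∃ k, k ∈ y.2 ∧ k ∉ y.1 ∧ z = (insert k y.1, y.2.erase k) := by
  classical
  simp only [bnd, LinearMap.comp_apply, prj_apply] at h
  by_cases hy : y.2 ∈ Δ
  swap
  · simp [hy] at h
  rw [if_pos hy, dd_apply] at h
  obtain ⟨k, hk, hk'⟩ := exists_ne_zero_of_sum_ne_zero h
  refine ⟨hy, k, (mem_sdiff.1 hk).1, (mem_sdiff.1 hk).2, ?_⟩
  by_contra hne
  simp [unit', Ne.symm hne] at hk'

lemma bnd_unit_apply {y : Pair n} {k : Fin n} (hy : y.2 ∈ Δ) (h2 : k ∈ y.2) (h1 : k ∉ y.1) :
    bnd F Δ (unit' F (insert k y.1, y.2.erase k)) y = (sgn k y.2 : F) := by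
  classical
  simp only [bnd, LinearMap.comp_apply, prj_apply, if_pos hy, dd_apply]
  rw [sum_eq_single k]
  · simp [unit']
  · intro l hl hne
    have : (insert l y.1, y.2.erase l) ≠ (insert k y.1, y.2.erase k) := fun e => by
      have h : l ∈ insert k y.1 := by
        have h' : insert l y.1 = insert k y.1 := (Prod.ext_iff.1 e).1
        rw [← h']
        exact mem_insert_self _ _
      exact (mem_sdiff.1 hl).2 ((mem_insert.1 h).resolve_left hne)
    simp [unit', this]
  · exact fun h => absurd (mem_sdiff.2 ⟨h2, h1⟩) h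

lemma unit'_mem {p d : ℕ} {z : Pair n} (hz : InCell Δ p d z) : unit' F z ∈ supp F Δ p d :=
  fun w hw => by
    have : w ≠ z := fun e => hw (e ▸ hz)
    simp [unit', this]

lemma bnd_mem {p d : ℕ} {f : Pair n → F} (hf : f ∈ supp F Δ (p + 1) d) :
    bnd F Δ f ∈ supp F Δ p (d + 1) :=
  prj_level_mem fun _ hz => dd_level hf hz

/-- The partner of a matched cell. -/
lemma inCell_partner {p d : ℕ} {z : Pair n} {m : Fin n} (hz : InCell Δ (p + 1) d z)
    (hw : Wit m z.2 z.1) (hm : insert m z.2 ∈ Δ) :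
    InCell Δ p (d + 1) (z.1.erase m, insert m z.2) := by
  refine ⟨?_, hm, ?_⟩
  · simp [card_erase_of_mem hw.1, hz.1]
  · simp [card_insert_of_notMem hw.2.1, hz.2.2]

lemma linearIndependent_src (Δ : Finset (Finset (Fin n))) (p d : ℕ) :
    LinearIndependent F (fun x : {z // z ∈ srcs Δ (p + 1) d} => bnd F Δ (unit' F x.1)) := by
  classical
  rw [Fintype.linearIndependent_iff]
  intro g hg x0
  obtain ⟨-, hx0, m, hw, hm⟩ := mem_filter.1 x0.2
  set y : Pair n := (x0.1.1.erase m, insert m x0.1.2) with hy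
  have hx0e : x0.1 = (insert m y.1, y.2.erase m) := by
    simp [hy, insert_erase hw.1, erase_insert hw.2.1]
  have hself : bnd F Δ (unit' F x0.1) y = (sgn m y.2 : F) := by
    rw [hx0e]
    exact bnd_unit_apply hm (mem_insert_self _ _) (notMem_erase _ _)
  have := congrFun hg y
  rw [Finset.sum_apply, sum_eq_single x0 ?_ (fun h => absurd (mem_univ _) h)] at this
  · simp only [Pi.smul_apply, smul_eq_mul, hself, Pi.zero_apply, mul_eq_zero] at this
    exact this.resolve_right (sgn_ne_zero _ _)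
  intro x _ hne
  by_contra hnz
  simp only [Pi.smul_apply, smul_eq_mul, mul_eq_zero, not_or] at hnz
  obtain ⟨-, k, hk2, hk1, hxe⟩ := bnd_unit_ne_zero hnz.2
  have hwy : Wit m y.1 y.2 := ⟨mem_insert_self _ _, notMem_erase _ _, fun l hl => by
    simp [hy, hl.ne', hw.2.2 l hl]⟩
  by_cases hkm : k = m
  · exact hne (Subtype.ext (by rw [hxe, hkm, ← hx0e]))
  obtain ⟨-, -, m', hw', -⟩ := mem_filter.1 x.2
  rw [hxe] at hw'
  have hlt : k < m := lt_of_le_of_ne (not_lt.1 fun hlt => hk1 ((hwy.2.2 k hlt).2 hk2)) hkm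
  exact Wit.not_wit (m := m) (A := insert k y.1) (T := y.2.erase k)
    ⟨mem_erase.2 ⟨hlt.ne', hwy.1⟩,
      fun h => hwy.2.1 ((mem_insert.1 h).resolve_left hlt.ne'),
      fun l hl => by simp [(hlt.trans hl).ne', hwy.2.2 l hl]⟩ hw'

/-- The boundaries of all cells are spanned by those of the matched ones. -/
lemma bnd_unit_mem_span (hd : IsDown Δ) (hs : IsShifted Δ) {p d : ℕ} {x : Pair n}
    (hx : InCell Δ (p + 1) d x) :
    bnd F Δ (unit' F x) ∈ Submodule.span F
      (Set.range fun x : {z // z ∈ srcs Δ (p + 1) d} => bnd F Δ (unit' F x.1)) := by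
  classical
  set W := Submodule.span F
      (Set.range fun x : {z // z ∈ srcs Δ (p + 1) d} => bnd F Δ (unit' F x.1))
  have hup : ∀ y : Pair n, InCell Δ (p + 1) d y → Below y.2 y.1 →
      bnd F Δ (unit' F y) ∈ W := by
    intro y hy ⟨m, hw⟩
    by_cases hm : insert m y.2 ∈ Δ
    · exact Submodule.subset_span ⟨⟨y, mem_filter.2 ⟨mem_univ _, hy, m, hw, hm⟩⟩, rfl⟩
    · convert W.zero_mem
      funext w
      by_contra hne
      obtain ⟨hwΔ, k, hk2, hk1, hye⟩ := bnd_unit_ne_zero hne
      have e1 : y.1 = insert k w.1 := by rw [hye]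
      have e2 : insert k y.2 = w.2 := by rw [hye]; exact insert_erase hk2
      have hky : k ∈ y.1 := e1 ▸ mem_insert_self _ _
      have hky' : k ∉ y.2 := by rw [hye]; exact notMem_erase _ _
      rcases lt_trichotomy k m with h | h | h
      · apply hm
        have := hs _ (e2 ▸ hwΔ) k (mem_insert_self _ _) m h
          (by simp [h.ne', hw.2.1])
        rwa [erase_insert hky'] at this
      · exact hm (h ▸ e2 ▸ hwΔ)
      · exact hky' ((hw.2.2 k h).2 hky)
  by_cases heq : x.2 = x.1
  · convert W.zero_mem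
    funext w
    by_contra hne
    obtain ⟨-, k, hk2, -, hxe⟩ := bnd_unit_ne_zero hne
    rw [hxe] at heq
    replace heq : w.2.erase k = insert k w.1 := heq
    have : k ∈ w.2.erase k := heq ▸ mem_insert_self k w.1
    exact notMem_erase _ _ this
  rcases below_or_below heq with h | ⟨m, hw⟩
  · exact hup x hx h
  -- the cell is the partner of the cell `z`
  set z : Pair n := (insert m x.1, x.2.erase m) with hz
  have hd1 : x.2.card = d - 1 + 1 := by
    have := card_pos.2 ⟨m, hw.1⟩
    have := hx.2.2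
    omega
  have hzc : InCell Δ (p + 1 + 1) (d - 1) z := by
    refine ⟨by simp [hz, card_insert_of_notMem hw.2.1, hx.1], hd _ hx.2.1 _ (erase_subset _ _), ?_⟩
    simp [hz, card_erase_of_mem hw.1, hd1]
  set c : F := (sgn m x.2 : F)
  have hdx : d - 1 + 1 = d := by rw [← hd1, hx.2.2]
  set g := bnd F Δ (unit' F z) - c • unit' F x with hg
  have hgW : bnd F Δ g ∈ W := by
    rw [← univ_sum_single g, map_sum]
    refine Submodule.sum_mem _ fun y _ => ?_
    have hsingle : Pi.single y (g y) = g y • unit' F y := by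
      rw [unit', ← Pi.single_smul', smul_eq_mul, mul_one]
    rw [hsingle, map_smul]
    by_cases hgy : g y = 0
    · rw [hgy, zero_smul]
      exact W.zero_mem
    refine Submodule.smul_mem _ _ ?_
    have hxy : y ≠ x := by
      rintro rfl
      apply hgy
      simp [hg, c, hz, bnd_unit_apply hx.2.1 hw.1 hw.2.1, unit'_self]
    have hby : bnd F Δ (unit' F z) y ≠ 0 := by
      intro h0
      apply hgy
      simp [hg, h0, unit'_of_ne hxy]
    have hyc : InCell Δ (p + 1) d y := by
      by_contra hn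
      refine hby ?_
      have := bnd_mem (unit'_mem (F := F) hzc)
      rw [hdx] at this
      exact this y hn
    obtain ⟨-, k, hk2, hk1, hze⟩ := bnd_unit_ne_zero hby
    have hzw : Wit m z.2 z.1 := ⟨mem_insert_self _ _, notMem_erase _ _, fun l hl => by
      simp [hz, hl.ne', hw.2.2 l hl]⟩
    have hkm : k ≠ m := by
      rintro rfl
      apply hxy
      have e1 : insert k y.1 = insert k x.1 := ((Prod.ext_iff.1 hze).1).symm
      have e2 : y.2.erase k = x.2.erase k := ((Prod.ext_iff.1 hze).2).symm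
      refine Prod.ext ?_ ?_
      · rw [← erase_insert hk1, e1, erase_insert hw.2.1]
      · rw [← insert_erase hk2, e2, insert_erase hw.1]
    have hlt : k < m := by
      refine lt_of_le_of_ne (not_lt.1 fun hlt => ?_) hkm
      have h1 := hzw.2.2 k hlt
      rw [hze] at h1
      exact notMem_erase _ _ (h1.2 (mem_insert_self _ _))
    refine hup y hyc ⟨m, ?_⟩
    rw [hze] at hzw
    refine ⟨(mem_insert.1 hzw.1).resolve_left hlt.ne', fun h => hzw.2.1 (mem_erase.2 ⟨hlt.ne', h⟩),
      fun l hl => ?_⟩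
    have := hzw.2.2 l hl
    simpa [(hlt.trans hl).ne'] using this
  have h0 : bnd F Δ (bnd F Δ (unit' F z)) = 0 := by
    simp only [bnd, LinearMap.comp_apply]
    rw [prj_dd_prj hd, dd_dd, map_zero]
  have hsplit : bnd F Δ (unit' F z) = g + c • unit' F x := by simp [hg]
  rw [hsplit, map_add, map_smul, add_eq_zero_iff_eq_neg] at h0
  have : bnd F Δ (unit' F x) = (-c⁻¹) • bnd F Δ g := by
    rw [h0, neg_smul, smul_neg, neg_neg, smul_smul, inv_mul_cancel₀ (sgn_ne_zero _ _), one_smul]
  rw [this]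
  exact Submodule.smul_mem _ _ hgW

/-- The rank counts the matched cells. -/
theorem rankAt_eq_card (hd : IsDown Δ) (hs : IsShifted Δ) (p d : ℕ) :
    rankAt F Δ p d = (srcs Δ (p + 1) d).card := by
  classical
  set W := Submodule.span F
      (Set.range fun x : {z // z ∈ srcs Δ (p + 1) d} => bnd F Δ (unit' F x.1))
  have hW : (supp F Δ (p + 1) d).map (bnd F Δ) = W := by
    refine le_antisymm ?_ (Submodule.span_le.2 ?_)
    · rintro _ ⟨f, hf, rfl⟩
      rw [← univ_sum_single f, map_sum]
      refine Submodule.sum_mem _ fun y _ => ?_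
      have hsingle : Pi.single y (f y) = f y • unit' F y := by
        rw [unit', ← Pi.single_smul', smul_eq_mul, mul_one]
      rw [hsingle, map_smul]
      by_cases hy : InCell Δ (p + 1) d y
      · exact Submodule.smul_mem _ _ (bnd_unit_mem_span hd hs hy)
      · rw [hf y hy, zero_smul]
        exact W.zero_mem
    · rintro _ ⟨x, rfl⟩
      exact ⟨_, unit'_mem (mem_filter.1 x.2).2.1, rfl⟩
  rw [show rankAt F Δ p d = finrank F ((supp F Δ (p + 1) d).map (bnd F Δ)) from rfl, hW,
    finrank_span_eq_card (linearIndependent_src Δ p d), Fintype.card_coe]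

lemma rk_eq_card (hd : IsDown Δ) (hs : IsShifted Δ) :
    ∀ p d, rk F Δ p d = (srcs Δ p d).card
  | 0, d => by
    classical
    rw [rk_zero, eq_comm, card_eq_zero, srcs, filter_eq_empty_iff]
    rintro z - ⟨⟨hc, -, -⟩, m, hw, -⟩
    simp [card_eq_zero.1 hc] at hw
    exact absurd hw.1 (notMem_empty _)
  | p + 1, d => by rw [rk_succ, rankAt_eq_card hd hs]

end Vale.Agent.P200.Betti.Combin
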