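import Mathlib

/-!
The Koszul complex of a squarefree monomial quotient modulo the squares, as integer matrices.
-/

namespace Vale.Agent.P200.Betti

open Finset

variable {n : ℕ}

/-- A cell of the complex of `Δ`: `p` exterior positions `T`, a monomial `S` of degree `d` in `Δ`. -/
abbrev Cell (Δ : Finset (Finset (Fin n))) (p d : ℕ) : Type :=
  {x : Finset (Fin n) × Finset (Fin n) // x.1.card = p ∧ x.2 ∈ Δ ∧ x.2.card = d}

/-- The sign of multiplying `S` by the variable `k`. -/
def sgn (k : Fin n) (S : Finset (Fin n)) : ℤ := (-1) ^ (S.filter (fun i => i < k)).card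

/-- The boundary: one position `k ∈ T` moves to the monomial, `k ∉ S`. -/
noncomputable def bd (R : Type*) [Ring R] (Δ : Finset (Finset (Fin n))) (p d : ℕ) :
    Matrix (Cell Δ p (d + 1)) (Cell Δ (p + 1) d) R :=
  fun y x => ∑ k ∈ x.1.1 \ x.1.2,
    if y.1.1 = x.1.1.erase k ∧ y.1.2 = insert k x.1.2 then (sgn k x.1.2 : R) else 0

/-- The rank of the boundary leaving position `p` in degree `d`. -/
noncomputable def rk (F : Type*) [Field F] (Δ : Finset (Finset (Fin n))) : ℕ → ℕ → ℕ
  | 0, _ => 0
  | p + 1, d => (bd F Δ p d).rank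

/-- The Betti number of the quotient at homological position `p` and internal degree `p + d`. -/
noncomputable def hdim (F : Type*) [Field F] (Δ : Finset (Finset (Fin n))) (p d : ℕ) : ℕ :=
  Fintype.card (Cell Δ p d) - rk F Δ p d - (if d = 0 then 0 else rk F Δ (p + 1) (d - 1))

/-- `Δ` is a simplicial complex: closed under subsets. -/
def IsDown (Δ : Finset (Finset (Fin n))) : Prop := ∀ S ∈ Δ, ∀ S' ⊆ S, S' ∈ Δ

/-- `Δ` is the complement of a strongly stable family: closed under replacing an element by a larger one. -/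
def IsShifted (Δ : Finset (Finset (Fin n))) : Prop :=
  ∀ S ∈ Δ, ∀ i ∈ S, ∀ j, i < j → j ∉ S → insert j (S.erase i) ∈ Δ

/-- The members of size `d`. -/
def level (Δ : Finset (Finset (Fin n))) (d : ℕ) : Finset (Finset (Fin n)) :=
  Δ.filter (fun S => S.card = d)

/-- `S` comes before `T` in the lexicographic order of squarefree monomials, `0` the largest. -/
def LexBefore (S T : Finset (Fin n)) : Prop := ∃ i ∈ S, i ∉ T ∧ ∀ j < i, (j ∈ S ↔ j ∈ T)

/-- In each size the non-members form an initial segment for the lexicographic order. -/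
def IsLexCompl (Δ : Finset (Finset (Fin n))) : Prop :=
  ∀ S T : Finset (Fin n), S.card = T.card → LexBefore S T → S ∈ Δ → T ∈ Δ

end Vale.Agent.P200.Betti
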