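import Vale.Agent.P200.Betti.Basic
import Vale.Agent.P200.Betti.Change
import Vale.Agent.P200.Assemble

/-!
Graded Betti numbers of a quotient of the polynomial ring as Koszul homology.
-/

namespace Vale.Agent.P200.Betti

open MvPolynomial Module

variable {K : Type*} [Field K] {n : ℕ}

/-- Families of polynomials indexed by sets of positions. -/
abbrev Kos (K : Type*) [Field K] (n : ℕ) : Type _ := Finset (Fin n) → MvPolynomial (Fin n) K

/-- The Koszul differential of the variables: `(∂ v) T` is the sum over `k ∉ T` of
`± X k * v (insert k T)`, the sign being the parity of the members of `T` above `k`. -/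
noncomputable def kos : Kos K n →ₗ[K] Kos K n :=
  kosD fun k => LinearMap.mulLeft K (X k : MvPolynomial (Fin n) K)

/-- Koszul chains: forms of degree `d` at the sets of size `p`, zero elsewhere. -/
noncomputable def chains (p d : ℕ) : Submodule K (Kos K n) :=
  Submodule.pi Set.univ fun T => if T.card = p then homogeneousSubmodule (Fin n) K d else ⊥

/-- The families with all values in the ideal. -/
noncomputable def inI (I : Ideal (MvPolynomial (Fin n) K)) : Submodule K (Kos K n) :=
  Submodule.pi Set.univ fun _ => I.restrictScalars K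

/-- The chains of position `p` and degree `d` whose boundary is zero modulo `I`. -/
noncomputable def cycles (I : Ideal (MvPolynomial (Fin n) K)) (p d : ℕ) : Submodule K (Kos K n) :=
  chains p d ⊓ (inI I).comap kos

/-- Boundaries of position `p` and degree `d`, together with the chains in `I`. -/
noncomputable def bounds (I : Ideal (MvPolynomial (Fin n) K)) (p d : ℕ) : Submodule K (Kos K n) :=
  (if d = 0 then ⊥ else (chains (p + 1) (d - 1)).map kos) ⊔ (chains p d ⊓ inI I)

/-- The graded Betti number `dim Tor_p(S/I, K)_j` of a homogeneous ideal, read off from the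
Koszul complex. -/
noncomputable def betti (I : Ideal (MvPolynomial (Fin n) K)) (p j : ℕ) : ℕ :=
  if p ≤ j then finrank K (cycles I p (j - p)) - finrank K (bounds I p (j - p)) else 0

/-- The rank of the boundary modulo `I` leaving position `p` in degree `d`. -/
noncomputable def rkI (I : Ideal (MvPolynomial (Fin n) K)) (p d : ℕ) : ℕ :=
  finrank K ((chains p d).map ((inI I).mkQ.comp kos))

lemma mem_chains {p d : ℕ} {v : Kos K n} :
    v ∈ chains p d ↔ ∀ T, (v T).IsHomogeneous d ∧ (T.card ≠ p → v T = 0) := by
  simp only [chains, Submodule.mem_pi, Set.mem_univ, true_implies]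
  refine forall_congr' fun T => ?_
  by_cases h : T.card = p
  · simp [h, mem_homogeneousSubmodule]
  · simp only [h, if_false, Submodule.mem_bot]
    exact ⟨fun h0 => ⟨h0 ▸ isHomogeneous_zero _ _ _, fun _ => h0⟩, fun h0 => h0.2 h⟩

lemma kos_apply (v : Kos K n) (T : Finset (Fin n)) :
    kos v T = ∑ k ∈ Tᶜ, posSign k T • (X k * v (insert k T)) := by
  simp [kos, kosD_apply]

lemma kos_mem_chains {p d : ℕ} {v : Kos K n} (hv : v ∈ chains (p + 1) d) :
    kos v ∈ chains p (d + 1) := by
  rw [mem_chains] at hv ⊢
  intro T
  rw [kos_apply]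
  refine ⟨IsHomogeneous.sum _ _ _ fun k _ => ?_, fun hT => Finset.sum_eq_zero fun k hk => ?_⟩
  · rw [← mem_homogeneousSubmodule]
    refine Submodule.smul_of_tower_mem _ _ ?_
    rw [mem_homogeneousSubmodule, add_comm]
    exact (isHomogeneous_X K k).mul (hv _).1
  · rw [(hv _).2 (by rw [Finset.card_insert_of_notMem (Finset.mem_compl.1 hk)]; omega), mul_zero,
      smul_zero]

lemma kos_eq_zero_of_mem {d : ℕ} {v : Kos K n} (hv : v ∈ chains 0 d) : kos v = 0 := by
  funext T
  rw [kos_apply]
  refine Finset.sum_eq_zero fun k _ => ?_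
  rw [((mem_chains.1 hv) _).2 (Finset.insert_nonempty k T).card_pos.ne', mul_zero, smul_zero]

lemma rkI_zero (I : Ideal (MvPolynomial (Fin n) K)) (d : ℕ) : rkI I 0 d = 0 := by
  have : (chains (K := K) (n := n) 0 d).map ((inI I).mkQ.comp kos) = ⊥ := by
    rw [Submodule.eq_bot_iff]
    rintro _ ⟨v, hv, rfl⟩
    rw [LinearMap.comp_apply, kos_eq_zero_of_mem hv, map_zero]
  rw [rkI, this, finrank_bot]

/-- Sections of a family of subspaces. -/
noncomputable def piEquiv (W : Finset (Fin n) → Submodule K (MvPolynomial (Fin n) K)) :
    Submodule.pi Set.univ W ≃ₗ[K] ((T : Finset (Fin n)) → W T) where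
  toFun v T := ⟨v.1 T, v.2 T trivial⟩
  invFun w := ⟨fun T => (w T).1, fun T _ => (w T).2⟩
  map_add' _ _ := rfl
  map_smul' _ _ := rfl
  left_inv _ := rfl
  right_inv _ := rfl

lemma finite_pi (W : Finset (Fin n) → Submodule K (MvPolynomial (Fin n) K))
    [∀ T, Module.Finite K (W T)] : Module.Finite K (Submodule.pi Set.univ W) :=
  Module.Finite.equiv (piEquiv W).symm

lemma finrank_pi_level (W : Submodule K (MvPolynomial (Fin n) K)) [Module.Finite K W] (p : ℕ) :
    finrank K (Submodule.pi Set.univ fun T : Finset (Fin n) => if T.card = p then W else ⊥) =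
      n.choose p * finrank K W := by
  have : ∀ T : Finset (Fin n), Module.Finite K ↥(if T.card = p then W else ⊥) := fun T => by
    by_cases h : T.card = p
    · rw [if_pos h]; infer_instance
    · rw [if_neg h]; infer_instance
  rw [(piEquiv _).finrank_eq, finrank_pi_fintype]
  have hrw : ∀ T : Finset (Fin n), finrank K ↥(if T.card = p then W else ⊥) =
      if T.card = p then finrank K W else 0 := fun T => by
    by_cases h : T.card = p
    · rw [if_pos h, if_pos h]
    · rw [if_neg h, if_neg h, finrank_bot]
  simp only [hrw]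
  rw [← Finset.sum_filter, ← Finset.powerset_univ, ← Finset.powersetCard_eq_filter]
  simp

instance finite_chains (p d : ℕ) : Module.Finite K (chains (K := K) (n := n) p d) := by
  have : ∀ T : Finset (Fin n),
      Module.Finite K ↥(if T.card = p then homogeneousSubmodule (Fin n) K d else ⊥) := fun T => by
    by_cases h : T.card = p
    · rw [if_pos h]; infer_instance
    · rw [if_neg h]; infer_instance
  exact finite_pi _

lemma chains_inf_inI (I : Ideal (MvPolynomial (Fin n) K)) (p d : ℕ) :
    chains p d ⊓ inI I =
      Submodule.pi Set.univ fun T => if T.card = p then degPart d I else ⊥ := by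
  ext v
  simp only [chains, inI, Submodule.mem_inf, Submodule.mem_pi, Set.mem_univ, true_implies,
    ← forall_and]
  refine forall_congr' fun T => ?_
  by_cases h : T.card = p
  · simp [h, degPart]
  · simp +contextual [h]

lemma finrank_chains (p d : ℕ) :
    finrank K (chains (K := K) (n := n) p d) =
      n.choose p * finrank K (homogeneousSubmodule (Fin n) K d) :=
  finrank_pi_level _ p

lemma finrank_chains_inI (I : Ideal (MvPolynomial (Fin n) K)) (p d : ℕ) :
    finrank K ↥(chains p d ⊓ inI I) = n.choose p * finrank K (degPart d I) := by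
  rw [chains_inf_inI, finrank_pi_level]

/-- The Betti number through the ranks modulo the ideal. -/
theorem betti_eq (I : Ideal (MvPolynomial (Fin n) K)) (p d : ℕ) :
    betti I p (p + d) =
      n.choose p * (finrank K (homogeneousSubmodule (Fin n) K d) - finrank K (degPart d I)) -
        rkI I p d - (if d = 0 then 0 else rkI I (p + 1) (d - 1)) := by
  have hcyc := finrank_map_add_ker ((inI I).mkQ.comp kos) (chains (K := K) (n := n) p d)
  rw [LinearMap.ker_comp, Submodule.ker_mkQ] at hcyc
  have hb : bounds I p d ≤ chains p d := by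
    refine sup_le ?_ inf_le_left
    split_ifs with h
    · exact bot_le
    · rintro _ ⟨v, hv, rfl⟩
      have := kos_mem_chains hv
      rwa [show d - 1 + 1 = d by omega] at this
  have : Module.Finite K (bounds I p d) := Submodule.finiteDimensional_of_le hb
  have hker : bounds I p d ⊓ LinearMap.ker (inI I).mkQ = chains p d ⊓ inI I := by
    rw [Submodule.ker_mkQ]
    exact le_antisymm (inf_le_inf_right _ hb) (le_inf le_sup_right inf_le_right)
  have hmap : (bounds I p d).map (inI I).mkQ =
      if d = 0 then ⊥ else (chains (p + 1) (d - 1)).map ((inI I).mkQ.comp kos) := by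
    rw [bounds, Submodule.map_sup]
    have h0 : (chains p d ⊓ inI I).map (inI I).mkQ = ⊥ := by
      rw [Submodule.eq_bot_iff]
      rintro _ ⟨v, hv, rfl⟩
      exact (Submodule.Quotient.mk_eq_zero _).2 hv.2
    rw [h0, sup_bot_eq]
    split_ifs with h
    · exact Submodule.map_bot _
    · exact (Submodule.map_comp _ _ _).symm
  have hbd := finrank_map_add_ker (inI I).mkQ (bounds I p d)
  rw [hker, hmap, finrank_chains_inI] at hbd
  rw [finrank_chains] at hcyc
  rw [betti, if_pos (Nat.le_add_right p d), Nat.add_sub_cancel_left, Nat.mul_sub]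
  simp only [rkI, cycles] at hcyc ⊢
  have key : ∀ A B F G R₁ R₂ : ℕ, R₁ + F = A → R₂ + B = G → F - G = A - B - R₁ - R₂ := by omega
  by_cases h : d = 0
  · rw [if_pos h, finrank_bot] at hbd
    rw [if_pos h]
    exact key _ _ _ _ _ _ hcyc hbd
  · rw [if_neg h] at hbd
    rw [if_neg h]
    exact key _ _ _ _ _ _ hcyc hbd

end Vale.Agent.P200.Betti
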