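import Mathlib

/-!
Two rank inequalities over a division algebra.
-/

namespace Vale.Agent.P200.Betti

open Module

variable {K D : Type*} [Field K] [DivisionRing D] [Algebra K D]

/-- A matrix bounds the span of vectors having it as their leading part. -/
theorem rank_le_finrank_span {N : Type*} [AddCommGroup N] [Module D N] {X Y : Type*} [Fintype X]
    [Fintype Y] {W : Type*} [LinearOrder W] (M : Matrix Y X K) (vec : X → N) (π : Y → N →ₗ[D] D)
    (wX : X → W) (wY : Y → W)
    (hM : ∀ y x, M y x ≠ 0 → wY y = wX x)
    (hπ : ∀ y x, wX x ≤ wY y → π y (vec x) = algebraMap K D (M y x)) :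
    M.rank ≤ finrank D (Submodule.span D (Set.range vec)) := by
  classical
  obtain ⟨κ, a, ha, hspan, hli⟩ := exists_linearIndependent' K M.col
  have : Fintype κ := Fintype.ofInjective a ha
  have hrank : M.rank = Fintype.card κ := by
    rw [Matrix.rank_eq_finrank_span_cols, ← hspan, finrank_span_eq_card hli]
  let F : (κ → K) →ₗ[K] (Y → K) := Fintype.linearCombination K (M.col ∘ a)
  have hF : LinearMap.ker F = ⊥ := by
    refine LinearMap.ker_eq_bot'.2 fun c hc => funext fun k => ?_
    exact Fintype.linearIndependent_iff.1 hli c
      (by simpa [F, Fintype.linearCombination_apply] using hc) k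
  obtain ⟨L, hL⟩ := F.exists_leftInverse_of_injective hF
  have hLcol : ∀ j k, ∑ y, M y (a k) * L (Pi.single y 1) j = if k = j then 1 else 0 := by
    intro j k
    have h := congrFun (LinearMap.congr_fun hL (Pi.single k 1)) j
    simp only [LinearMap.comp_apply, LinearMap.id_apply, F,
      Fintype.linearCombination_apply_single, one_smul] at h
    rw [show (M.col ∘ a) k = ∑ y, M y (a k) • (Pi.single y 1 : Y → K) by
      funext y; simp [Pi.single_apply], map_sum, Finset.sum_apply] at h
    simpa [Pi.single_apply, eq_comm] using h
  have key : LinearIndependent D (vec ∘ a) := by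
    rw [Fintype.linearIndependent_iff]
    intro c hc
    by_contra hne
    push Not at hne
    obtain ⟨j₁, hj₁⟩ := hne
    obtain ⟨j, hj, hmax⟩ := (Finset.univ.filter fun k => c k ≠ 0).exists_max_image
      (fun k => wX (a k)) ⟨j₁, by simp [hj₁]⟩
    simp only [Finset.mem_filter, Finset.mem_univ, true_and] at hj hmax
    let c' : κ → D := fun k => if wX (a k) = wX (a j) then c k else 0
    have hrow : ∀ y, ∑ k, c' k * algebraMap K D (M y (a k)) = 0 := by
      intro y
      by_cases hy : wY y = wX (a j)
      · have h := congrArg (π y) hc
        simp only [map_sum, map_smul, map_zero, Function.comp_apply, smul_eq_mul] at h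
        refine Eq.trans (Finset.sum_congr rfl fun k _ => ?_) h
        by_cases hck : c k = 0
        · simp [c', hck]
        · rw [hπ y (a k) (hy ▸ hmax k hck)]
          simp only [c']
          split_ifs with hw
          · rfl
          · rw [show M y (a k) = 0 from by_contra fun h' => hw ((hM y _ h').symm.trans hy)]
            simp
      · refine Finset.sum_eq_zero fun k _ => ?_
        simp only [c']
        split_ifs with hw
        · rw [show M y (a k) = 0 from by_contra fun h' => hy ((hM y _ h').trans hw)]
          simp
        · simp
    have h0 : c' j = 0 := by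
      calc c' j = ∑ k, c' k * algebraMap K D (if k = j then 1 else 0) := by
            rw [Finset.sum_eq_single j (fun k _ hk => by simp [hk]) (by simp)]
            simp
        _ = ∑ y, (∑ k, c' k * algebraMap K D (M y (a k))) *
              algebraMap K D (L (Pi.single y 1) j) := by
            simp only [← hLcol, map_sum, map_mul, Finset.mul_sum, Finset.sum_mul, mul_assoc]
            exact Finset.sum_comm
        _ = 0 := Finset.sum_eq_zero fun y _ => by rw [hrow, zero_mul]
    simp only [c', if_true] at h0
    exact hj h0
  have : FiniteDimensional D (Submodule.span D (Set.range vec)) :=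
    FiniteDimensional.span_of_finite D (Set.finite_range vec)
  rw [hrank, ← finrank_span_eq_card key]
  exact Submodule.finrank_mono (Submodule.span_mono (Set.range_comp_subset_range a vec))

/-- Spanning over the larger scalars does not increase the dimension. -/
theorem finrank_span_le_finrank {N : Type*} [AddCommGroup N] [Module D N] [Module K N]
    [IsScalarTower K D N] (W : Submodule K N) [Module.Finite K W] :
    finrank D (Submodule.span D (W : Set N)) ≤ finrank K W := by
  classical
  let b := Module.finBasis K W
  have : Submodule.span D (W : Set N) = Submodule.span D (Set.range fun k => (b k : N)) := by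
    refine le_antisymm (Submodule.span_le.2 fun x hx => ?_)
      (Submodule.span_mono fun x ⟨k, hk⟩ => hk ▸ (b k).2)
    have h := congrArg Subtype.val (b.sum_repr ⟨x, hx⟩)
    simp only [Submodule.coe_sum, Submodule.coe_smul] at h
    rw [SetLike.mem_coe, ← h]
    exact sum_mem fun k _ => Submodule.smul_of_tower_mem _ _ (Submodule.subset_span ⟨k, rfl⟩)
  rw [this]
  exact (finrank_range_le_card _).trans_eq (Fintype.card_fin _)

end Vale.Agent.P200.Betti
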