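import Vale.Agent.P200.Betti.Basic
import Vale.Agent.P200.Quad.Artinian

/-!
The complex of squarefree monomials outside degreewise sets of exponents.
-/

namespace Vale.Agent.P200.Betti

open Finset MvPolynomial Module
open Vale.Agent.P200.Quad (ind nsf mem_nsf ind_injective degree_ind ind_insert ind_apply card_nsf)

variable {n : ℕ}

/-- The squarefree sets outside `T`. -/
noncomputable def outside (T : ℕ → Finset (Fin n →₀ ℕ)) : Finset (Finset (Fin n)) :=
  univ.filter fun S => ind S ∉ T S.card

lemma mem_outside {T : ℕ → Finset (Fin n →₀ ℕ)} {S : Finset (Fin n)} :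
    S ∈ outside T ↔ ind S ∉ T S.card := by simp [outside]

/-- Closure under the variables gives a simplicial complex. -/
lemma isDown_outside {T : ℕ → Finset (Fin n →₀ ℕ)}
    (h : ∀ d, ∀ e ∈ T d, ∀ v, e + Finsupp.single v 1 ∈ T (d + 1)) : IsDown (outside T) := by
  intro S hS S' hsub
  rw [mem_outside] at hS ⊢
  intro hS'
  apply hS
  have key : ∀ A : Finset (Fin n), Disjoint S' A → ind (S' ∪ A) ∈ T (S' ∪ A).card := by
    intro A
    induction A using Finset.induction_on with
    | empty => intro _; simpa using hS'
    | insert a A ha ih =>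
      intro hd
      rw [disjoint_insert_right] at hd
      have hmem := h _ _ (ih hd.2) a
      have hna : a ∉ S' ∪ A := by simp [hd.1, ha]
      rw [union_insert, card_insert_of_notMem hna, ← ind_insert hna]
      exact hmem
  simpa [union_sdiff_of_subset hsub] using key (S \ S') disjoint_sdiff

/-- The levels count the monomials outside. -/
lemma card_level_outside (K : Type*) [Field K] {T : ℕ → Finset (Fin n →₀ ℕ)} {d : ℕ}
    (hdeg : ∀ e ∈ T d, e.degree = d)
    (hsq : ∀ e : Fin n →₀ ℕ, e.degree = d → (∃ i, 2 ≤ e i) → e ∈ T d) :
    (level (outside T) d).card + (T d).card = finrank K (homogeneousSubmodule (Fin n) K d) := by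
  classical
  have hT : T d = ((univ.powersetCard d).filter fun S => ind S ∈ T d).image ind ∪ nsf n d := by
    ext e
    simp only [mem_union, Finset.mem_image, mem_filter, mem_powersetCard, subset_univ, true_and,
      mem_nsf]
    constructor
    · intro he
      by_cases h2 : ∃ i, 2 ≤ e i
      · exact Or.inr ⟨hdeg e he, h2⟩
      · push Not at h2
        have hi : ind (univ.filter fun i => e i = 1) = e := by
          ext i
          have := h2 i
          simp only [ind_apply, mem_filter, mem_univ, true_and]
          split_ifs <;> omega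
        refine Or.inl ⟨_, ⟨?_, by rw [hi]; exact he⟩, hi⟩
        rw [← degree_ind, hi, hdeg e he]
    · rintro (⟨S, ⟨-, hS⟩, rfl⟩ | ⟨h1, h2⟩)
      · exact hS
      · exact hsq e h1 h2
  have hdis : Disjoint (((univ.powersetCard d).filter fun S => ind S ∈ T d).image ind)
      (nsf n d) := by
    rw [Finset.disjoint_left]
    intro e he he'
    obtain ⟨S, -, rfl⟩ := Finset.mem_image.1 he
    obtain ⟨-, i, hi⟩ := mem_nsf.1 he'
    rw [ind_apply] at hi
    split_ifs at hi <;> omega
  have hlev : level (outside T) d = (univ.powersetCard d).filter fun S => ind S ∉ T d := by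
    ext S
    simp only [mem_level, mem_outside, mem_filter, mem_powersetCard, subset_univ, true_and]
    constructor
    · rintro ⟨h1, h2⟩; exact ⟨h2, h2 ▸ h1⟩
    · rintro ⟨h1, h2⟩; exact ⟨h1 ▸ h2, h1⟩
  rw [hlev, hT, card_union_of_disjoint hdis, card_image_of_injective _ ind_injective, ← hT,
    ← card_nsf (K := K) (n := n) d]
  have h := card_filter_add_card_filter_not (s := (univ : Finset (Fin n)).powersetCard d)
    (fun S => ind S ∈ T d)
  rw [card_powersetCard, card_univ, Fintype.card_fin] at h
  omega

end Vale.Agent.P200.Betti
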