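import Vale.Agent.P200.Betti.Words
import Vale.Agent.P200.Betti.Rank
import Vale.Agent.P200.Betti.Koszul
import Vale.Agent.P200.Betti.Sets

/-!
Ideals containing a regular sequence of quadrics degenerate to squarefree monomial complexes.
-/

namespace Vale.Agent.P200.Betti

open MvPolynomial Module
open scoped TensorProduct
open Vale.Agent.P200.Quad (Quo quoDeg mkA act piece wgt wgt_injective leadSets mem_leadSets
  card_leadSets repr_map exists_factorisation finrank_quoDeg finrank_span_one_tmul tmul_mem_piece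
  card_nsf wgt_insert)

universe u

section lin

variable {c : ℕ} {D : Type*} [DivisionRing D] {V : Type*} [AddCommGroup V] [Module D V]
  (b : Basis (Finset (Fin c)) D V)

/-- The subsets that are not leading sets. -/
noncomputable def nonLead (U : Submodule D V) : Finset (Finset (Fin c)) := by
  classical exact Finset.univ.filter fun S => S ∉ leadSets b U S.card

lemma mem_nonLead {U : Submodule D V} {S : Finset (Fin c)} :
    S ∈ nonLead b U ↔ S ∉ leadSets b U S.card := by
  classical simp [nonLead]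

/-- Modulo `U` a leading vector is a combination of lower non-leading ones. -/
lemma mem_sup_lower (U : Submodule D V) (R : Finset (Fin c)) (hR : R ∉ nonLead b U) :
    b R ∈ U ⊔ Submodule.span D (b '' {S | S ∈ nonLead b U ∧ wgt S < wgt R}) := by
  induction hm : wgt R using Nat.strong_induction_on generalizing R with
  | _ m IH =>
    subst hm
    rw [mem_nonLead, not_not, mem_leadSets] at hR
    obtain ⟨v, hv, hv0, hlow⟩ := hR
    set N := U ⊔ Submodule.span D (b '' {S | S ∈ nonLead b U ∧ wgt S < wgt R})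
    have hrest : ∀ S ∈ Finset.univ.erase R, b.repr v S • b S ∈ N := by
      intro S hS
      by_cases h0 : b.repr v S = 0
      · rw [h0, zero_smul]; exact zero_mem _
      refine Submodule.smul_mem _ _ ?_
      have hlt : wgt S < wgt R := lt_of_le_of_ne (hlow S h0)
        fun e => (Finset.mem_erase.1 hS).1 (wgt_injective e)
      by_cases hSn : S ∈ nonLead b U
      · exact Submodule.mem_sup_right (Submodule.subset_span ⟨S, ⟨hSn, hlt⟩, rfl⟩)
      · refine (sup_le_sup_left (Submodule.span_mono (Set.image_mono ?_)) U) (IH _ hlt S hSn rfl)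
        exact fun S' hS' => ⟨hS'.1, hS'.2.trans hlt⟩
    have hsum : b.repr v R • b R + ∑ S ∈ Finset.univ.erase R, b.repr v S • b S = v := by
      rw [Finset.add_sum_erase _ (fun S => b.repr v S • b S) (Finset.mem_univ R)]
      exact b.sum_repr v
    have hb : b.repr v R • b R ∈ N := by
      rw [eq_sub_of_add_eq hsum]
      exact sub_mem (Submodule.mem_sup_left hv.1) (sum_mem hrest)
    simpa [smul_smul, inv_mul_cancel₀ hv0] using N.smul_mem (b.repr v R)⁻¹ hb

/-- Coordinates on the quotient indexed by the non-leading sets. -/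
theorem exists_coord (U : Submodule D V)
    (hU : ∀ u ∈ U, u ≠ 0 → ∃ d, ∃ w ∈ U, w ≠ 0 ∧
      ∀ R, b.repr w R ≠ 0 → R.card = d ∧ b.repr u R ≠ 0) :
    ∃ co : Finset (Fin c) → (V ⧸ U) →ₗ[D] D, ∀ S ∈ nonLead b U, ∀ R,
      (R ∈ nonLead b U → co S (U.mkQ (b R)) = if R = S then 1 else 0) ∧
      (R ∉ nonLead b U → wgt R ≤ wgt S → co S (U.mkQ (b R)) = 0) := by
  classical
  set Sp := Submodule.span D (b '' (nonLead b U : Set (Finset (Fin c))))
  have hc : IsCompl U Sp := by
    refine IsCompl.of_eq ?_ ?_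
    · rw [Submodule.eq_bot_iff]
      rintro u ⟨hu1, hu2⟩
      by_contra hne
      obtain ⟨d, w, hw, hw0, hR⟩ := hU u hu1 hne
      obtain ⟨R, hRl⟩ := Quad.exists_lead b hw0
      have hd := (hR R hRl.1).1
      have hmem : R ∈ nonLead b U :=
        b.mem_span_image.1 hu2 (Finsupp.mem_support_iff.2 (hR R hRl.1).2)
      refine (mem_nonLead b).1 hmem ((mem_leadSets b).2 ⟨w, ⟨hw, ?_⟩, hRl⟩)
      rw [SetLike.mem_coe, Quad.mem_degPart]
      exact fun R' hR' => (hR R' hR').1.trans hd.symm
    · rw [eq_top_iff, ← b.span_eq, Submodule.span_le]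
      rintro _ ⟨R, rfl⟩
      by_cases hR : R ∈ nonLead b U
      · exact Submodule.mem_sup_right (Submodule.subset_span ⟨R, hR, rfl⟩)
      · exact sup_le_sup_left (Submodule.span_mono (Set.image_mono fun S hS => hS.1)) U
          (mem_sup_lower b U R hR)
  let e := Submodule.quotientEquivOfIsCompl U Sp hc
  have he : ∀ x ∈ Sp, (e (U.mkQ x) : V) = x := fun x hx =>
    congrArg Subtype.val (Submodule.quotientEquivOfIsCompl_apply_mk_right hc ⟨x, hx⟩)
  refine ⟨fun S => (b.coord S).comp (Sp.subtype.comp e.toLinearMap), fun S hS R => ⟨?_, ?_⟩⟩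
  · intro hR
    simp only [LinearMap.comp_apply, LinearEquiv.coe_coe, Submodule.subtype_apply]
    rw [he _ (Submodule.subset_span ⟨R, hR, rfl⟩), Basis.coord_apply, Basis.repr_self,
      Finsupp.single_apply]
  · intro hR hle
    obtain ⟨u, hu, s, hs, hus⟩ := Submodule.mem_sup.1 (mem_sup_lower b U R hR)
    simp only [LinearMap.comp_apply, LinearEquiv.coe_coe, Submodule.subtype_apply]
    have h0 : U.mkQ (b R) = U.mkQ s := by
      rw [← hus, map_add, Submodule.mkQ_apply, (Submodule.Quotient.mk_eq_zero U).2 hu, zero_add]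
    rw [h0, he s (Submodule.span_mono (Set.image_mono fun S' hS' => hS'.1) hs), Basis.coord_apply]
    by_contra hne
    have := (b.mem_span_image.1 hs (Finsupp.mem_support_iff.2 hne)).2
    omega

end lin

section model

variable {K : Type u} [Field K] {n : ℕ} {D : Type u} [DivisionRing D] [Algebra K D]
variable (f : Fin n → MvPolynomial (Fin n) K)

/-- Right multiplication. -/
noncomputable def rmul (x : D) : D ⊗[K] Quo f →ₗ[D] D ⊗[K] Quo f :=
  TensorProduct.AlgebraTensorModule.map (LinearMap.toSpanSingleton D D x) LinearMap.id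

/-- Multiplication by a variable. -/
noncomputable def lmul (i : Fin n) : D ⊗[K] Quo f →ₗ[D] D ⊗[K] Quo f :=
  TensorProduct.AlgebraTensorModule.map LinearMap.id (LinearMap.mulLeft K (mkA f (X i)))

lemma rmul_tmul (x d : D) (q : Quo f) : rmul f x (d ⊗ₜ q) = (d * x) ⊗ₜ q := by simp [rmul]

lemma lmul_tmul (i : Fin n) (d : D) (q : Quo f) :
    lmul f i (d ⊗ₜ q) = d ⊗ₜ (mkA f (X i) * q) := by simp [lmul]

lemma rmul_rmul (x y : D) (v : D ⊗[K] Quo f) : rmul f x (rmul f y v) = rmul f (y * x) v := by
  induction v using TensorProduct.induction_on with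
  | zero => simp
  | tmul d q => simp [rmul_tmul, mul_assoc]
  | add a b ha hb => simp [ha, hb]

lemma rmul_add (x y : D) (v : D ⊗[K] Quo f) : rmul f (x + y) v = rmul f x v + rmul f y v := by
  induction v using TensorProduct.induction_on with
  | zero => simp
  | tmul d q => simp [rmul_tmul, mul_add, TensorProduct.add_tmul]
  | add a b ha hb => simp only [map_add, ha, hb]; abel

/-- Right multiplication as an additive function of the scalar. -/
noncomputable def rmulHom (v : D ⊗[K] Quo f) : D →+ D ⊗[K] Quo f :=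
  AddMonoidHom.mk' (fun x => rmul f x v) fun x y => rmul_add f x y v

lemma lmul_rmul (i : Fin n) (x : D) (v : D ⊗[K] Quo f) :
    lmul f i (rmul f x v) = rmul f x (lmul f i v) := by
  induction v using TensorProduct.induction_on with
  | zero => simp
  | tmul d q => simp [rmul_tmul, lmul_tmul]
  | add a b ha hb => simp [ha, hb]

lemma act_eq (g : Fin n → Fin n → D) (k : Fin n) (v : D ⊗[K] Quo f) :
    act f g k v = ∑ i, lmul f i (rmul f (g k i) v) := by
  induction v using TensorProduct.induction_on with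
  | zero => simp
  | tmul d q => simp [Quad.act_tmul, rmul_tmul, lmul_tmul]
  | add a b ha hb => simp [ha, hb, Finset.sum_add_distrib]

lemma rmul_piece (x : D) {d : ℕ} {v : D ⊗[K] Quo f} (hv : v ∈ piece f d) :
    rmul f x v ∈ piece f d := by
  induction hv using Submodule.span_induction with
  | mem y hy =>
    obtain ⟨q, hq, rfl⟩ := hy
    rw [rmul_tmul]
    exact tmul_mem_piece f _ hq
  | zero => simp
  | add y z _ _ hy hz => rw [map_add]; exact add_mem hy hz
  | smul r y _ hy => rw [map_smul]; exact Submodule.smul_mem _ _ hy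

/-- The image of an ideal. -/
noncomputable def idealSpan (I : Ideal (MvPolynomial (Fin n) K)) : Submodule D (D ⊗[K] Quo f) :=
  Submodule.span D ((fun u => (1 : D) ⊗ₜ[K] mkA f u) '' (I : Set (MvPolynomial (Fin n) K)))

lemma rmul_idealSpan (I : Ideal (MvPolynomial (Fin n) K)) (x : D) :
    idealSpan f I ≤ (idealSpan (D := D) f I).comap (rmul f x) := by
  refine Submodule.span_le.2 ?_
  rintro _ ⟨u, hu, rfl⟩
  rw [SetLike.mem_coe, Submodule.mem_comap, rmul_tmul, one_mul,
    show x ⊗ₜ[K] mkA f u = x • ((1 : D) ⊗ₜ[K] mkA f u) by simp [TensorProduct.smul_tmul']]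
  exact Submodule.smul_mem _ _ (Submodule.subset_span ⟨u, hu, rfl⟩)

lemma lmul_idealSpan (I : Ideal (MvPolynomial (Fin n) K)) (i : Fin n) :
    idealSpan f I ≤ (idealSpan (D := D) f I).comap (lmul f i) := by
  refine Submodule.span_le.2 ?_
  rintro _ ⟨u, hu, rfl⟩
  rw [SetLike.mem_coe, Submodule.mem_comap, lmul_tmul,
    ← show mkA f (X i * u) = mkA f (X i) * mkA f u from
      map_mul (Ideal.Quotient.mkₐ K (Ideal.span (Set.range f))) _ _]
  exact Submodule.subset_span ⟨_, I.mul_mem_left (X i) hu, rfl⟩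

lemma idealSpan_inf_piece {I : Ideal (MvPolynomial (Fin n) K)} (hI : HomogI I)
    (P : D ⊗[K] Quo f →ₗ[D] D ⊗[K] Quo f) {d : ℕ}
    (hP : ∀ e, ∀ v ∈ piece f e, P v = if e = d then v else 0)
    (hP' : ∀ u, P ((1 : D) ⊗ₜ[K] mkA f u) = (1 : D) ⊗ₜ[K] mkA f (homogeneousComponent d u)) :
    idealSpan f I ⊓ piece f d = Submodule.span D ((fun q : Quo f => (1 : D) ⊗ₜ[K] q) ''
      (Quad.jbar f I d : Set (Quo f))) ∧
    ∀ v ∈ idealSpan (D := D) f I, P v ∈ idealSpan (D := D) f I := by
  have hstab : ∀ v ∈ idealSpan (D := D) f I, P v ∈ Submodule.span D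
      ((fun q : Quo f => (1 : D) ⊗ₜ[K] q) '' (Quad.jbar f I d : Set (Quo f))) := by
    intro v hv
    induction hv using Submodule.span_induction with
    | mem y hy =>
      obtain ⟨u, hu, rfl⟩ := hy
      rw [hP']
      exact Submodule.subset_span ⟨_, ⟨_, ⟨homogeneousComponent_mem _ _, hI u hu d⟩, rfl⟩, rfl⟩
    | zero => simp
    | add y z _ _ hy hz => rw [map_add]; exact add_mem hy hz
    | smul r y _ hy => rw [map_smul]; exact Submodule.smul_mem _ _ hy
  have hle : Submodule.span D ((fun q : Quo f => (1 : D) ⊗ₜ[K] q) ''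
      (Quad.jbar f I d : Set (Quo f))) ≤ idealSpan f I ⊓ piece f d := by
    refine Submodule.span_le.2 ?_
    rintro _ ⟨_, ⟨u, hu, rfl⟩, rfl⟩
    exact ⟨Submodule.subset_span ⟨u, hu.2, rfl⟩, tmul_mem_piece f 1 ⟨u, hu.1, rfl⟩⟩
  refine ⟨le_antisymm (fun v hv => ?_) hle, fun v hv => (hle (hstab v hv)).1⟩
  have h := hstab v hv.1
  rwa [hP d v hv.2, if_pos rfl] at h

end model

end Vale.Agent.P200.Betti
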