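import Vale.Agent.P200.Betti.Koszul
import Vale.Agent.P200.Betti.Sets

/-!
The Betti numbers of a monomial ideal containing all squares are those of its complex.
-/

namespace Vale.Agent.P200.Betti

open MvPolynomial Module
open Vale.Agent.P200.Quad (ind ind_apply ind_injective degree_ind ind_insert)

variable {K : Type*} [Field K] {n : ℕ}

/-- The sign comparing the two Koszul conventions. -/
def eps (T S : Finset (Fin n)) : ℤ := (-1) ^ ∑ a ∈ T, (S.filter (· < a)).card

lemma eps_insert {T S : Finset (Fin n)} {k : Fin n} (hkT : k ∉ T) (hkS : k ∉ S) :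
    eps (insert k T) S * sgn k S = eps T (insert k S) * posSign k T := by
  have h1 : ∑ a ∈ T, ((insert k S).filter (· < a)).card =
      (∑ a ∈ T, (S.filter (· < a)).card) + (T.filter (k < ·)).card := by
    rw [Finset.card_filter (fun a => k < a) T, ← Finset.sum_add_distrib]
    refine Finset.sum_congr rfl fun a _ => ?_
    rw [Finset.filter_insert]
    split_ifs with h
    · rw [Finset.card_insert_of_notMem (by simp [hkS])]
    · rfl
  simp only [eps, sgn, posSign, Finset.sum_insert hkT, h1, pow_add]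
  have h2 : ∀ m : ℕ, ((-1 : ℤ) ^ m) * (-1) ^ m = 1 := fun m => by
    rw [← mul_pow, neg_one_mul, neg_neg, one_pow]
  calc (-1 : ℤ) ^ (S.filter (· < k)).card * (-1) ^ (∑ a ∈ T, (S.filter (· < a)).card) *
        (-1) ^ (S.filter (· < k)).card
      = (-1) ^ (∑ a ∈ T, (S.filter (· < a)).card) *
          ((-1) ^ (S.filter (· < k)).card * (-1) ^ (S.filter (· < k)).card) := by ring
    _ = _ := by rw [h2, mul_assoc, h2]

/-- Signed squarefree coefficients. -/
noncomputable def cellCoeff (Δ : Finset (Finset (Fin n))) (p d : ℕ) :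
    Kos K n →ₗ[K] (Cell Δ p d → K) :=
  LinearMap.pi fun x => ((eps x.1.1 x.1.2 : ℤ) : K) •
    (Finsupp.lapply (ind x.1.2)).comp
      ((AddMonoidAlgebra.coeffLinearEquiv K).toLinearMap.comp (LinearMap.proj x.1.1))

lemma cellCoeff_apply (Δ : Finset (Finset (Fin n))) (p d : ℕ) (v : Kos K n) (x : Cell Δ p d) :
    cellCoeff Δ p d v x = (eps x.1.1 x.1.2 : K) * coeff (ind x.1.2) (v x.1.1) := rfl

lemma cast_eps_sq (T S : Finset (Fin n)) : ((eps T S : ℤ) : K) * (eps T S : ℤ) = 1 := by
  rw [← Int.cast_mul, eps, ← mul_pow, neg_one_mul, neg_neg, one_pow, Int.cast_one]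

lemma map_cellCoeff_chains (Δ : Finset (Finset (Fin n))) (p d : ℕ) :
    (chains p d).map (cellCoeff (K := K) Δ p d) = ⊤ := by
  classical
  rw [eq_top_iff]
  intro w _
  rw [← Finset.univ_sum_single w]
  refine sum_mem fun x _ => ?_
  obtain ⟨⟨T, S⟩, hT, hS, hSd⟩ := x
  refine ⟨Pi.single T (monomial (ind S) ((eps T S : K) * w ⟨(T, S), hT, hS, hSd⟩)), ?_, ?_⟩
  · rw [SetLike.mem_coe, mem_chains]
    intro T'
    by_cases h : T' = T
    · subst h
      simp only [Pi.single_eq_same]
      exact ⟨isHomogeneous_monomial _ (by rw [degree_ind]; exact hSd), fun h => absurd hT h⟩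
    · simp only [Pi.single_eq_of_ne h]
      exact ⟨isHomogeneous_zero _ _ _, fun _ => trivial⟩
  · funext y
    rw [cellCoeff_apply]
    obtain ⟨⟨T', S'⟩, hT', hS', hSd'⟩ := y
    simp only
    by_cases hTT : T' = T
    · subst hTT
      rw [Pi.single_eq_same, coeff_monomial]
      by_cases hSS : S = S'
      · subst hSS
        rw [if_pos rfl, Pi.single_eq_same, ← mul_assoc, cast_eps_sq, one_mul]
      · rw [if_neg (fun h => hSS (ind_injective h)), mul_zero, Pi.single_eq_of_ne]
        simp [Ne.symm hSS]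
    · rw [Pi.single_eq_of_ne hTT, coeff_zero, mul_zero, Pi.single_eq_of_ne]
      simp [hTT]

lemma cellCoeff_kos {Δ : Finset (Finset (Fin n))} (hΔ : IsDown Δ) (p d : ℕ) {v : Kos K n}
    (hv : v ∈ chains (p + 1) d) :
    cellCoeff Δ p (d + 1) (kos v) = (bd K Δ p d).mulVec (cellCoeff Δ (p + 1) d v) := by
  classical
  funext y
  obtain ⟨⟨T', S'⟩, hT', hS', hSd'⟩ := y
  rw [cellCoeff_apply, kos_apply]
  simp only [Matrix.mulVec, dotProduct, bd, cellCoeff_apply, Finset.sum_mul]
  rw [coeff_sum, Finset.mul_sum]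
  have hx : ∀ x : Cell Δ (p + 1) d,
      ∑ k ∈ x.1.1 \ x.1.2,
        (if T' = x.1.1.erase k ∧ S' = insert k x.1.2 then (sgn k x.1.2 : K) else 0) *
          ((eps x.1.1 x.1.2 : K) * coeff (ind x.1.2) (v x.1.1)) =
      ∑ k : Fin n, if k ∈ x.1.1 \ x.1.2 ∧ T' = x.1.1.erase k ∧ S' = insert k x.1.2 then
        (sgn k x.1.2 : K) * ((eps x.1.1 x.1.2 : K) * coeff (ind x.1.2) (v x.1.1)) else 0 := by
    intro x
    rw [← Finset.sum_filter]
    simp only [ite_mul, zero_mul]
    rw [← Finset.sum_filter]
    exact Finset.sum_congr (by ext k; simp) fun _ _ => rfl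
  rw [Finset.sum_congr rfl (fun x _ => hx x), Finset.sum_comm,
    ← Finset.sum_subset (Finset.subset_univ T'ᶜ) (fun k _ hk => ?_)]
  · refine Finset.sum_congr rfl fun k hk => ?_
    rw [Finset.mem_compl] at hk
    rw [coeff_smul, coeff_X_mul']
    by_cases hkS : k ∈ S'
    · have hc : (insert k T').card = p + 1 := by rw [Finset.card_insert_of_notMem hk, hT']
      have hc' : (S'.erase k).card = d := by rw [Finset.card_erase_of_mem hkS, hSd']; rfl
      have hm : S'.erase k ∈ Δ := hΔ S' hS' _ (Finset.erase_subset _ _)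
      rw [Finset.sum_eq_single (⟨(insert k T', S'.erase k), hc, hm, hc'⟩ : Cell Δ (p + 1) d)]
      · rw [if_pos (show k ∈ (ind S').support by simp [ind_apply, hkS]),
          if_pos ⟨by simp, (Finset.erase_insert hk).symm, (Finset.insert_erase hkS).symm⟩]
        simp only
        have hsub : ind S' - Finsupp.single k 1 = ind (S'.erase k) := by
          conv_lhs => rw [← Finset.insert_erase hkS, ← ind_insert (Finset.notMem_erase k S')]
          exact add_tsub_cancel_right _ _
        rw [hsub, ← mul_assoc, ← Int.cast_mul, mul_comm (sgn k (S'.erase k)),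
          eps_insert hk (Finset.notMem_erase k S'), Finset.insert_erase hkS, Int.cast_mul,
          zsmul_eq_mul, mul_assoc]
      · intro x _ hx
        rw [if_neg]
        rintro ⟨h0, h1, h2⟩
        apply hx
        obtain ⟨h0, h0'⟩ := Finset.mem_sdiff.1 h0
        refine Subtype.ext (Prod.ext ?_ ?_)
        · simp only; rw [h1, Finset.insert_erase h0]
        · simp only; rw [h2, Finset.erase_insert h0']
      · simp
    · rw [if_neg (by simp [ind_apply, hkS]), smul_zero, mul_zero]
      refine (Finset.sum_eq_zero fun x _ => if_neg ?_).symm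
      rintro ⟨-, -, h2⟩
      exact hkS (h2 ▸ Finset.mem_insert_self _ _)
  · rw [Finset.mem_compl, not_not] at hk
    refine Finset.sum_eq_zero fun x _ => if_neg ?_
    rintro ⟨-, h1, -⟩
    exact Finset.notMem_erase k x.1.1 (h1 ▸ hk)

variable (T : ℕ → Finset (Fin n →₀ ℕ))

/-- The monomial ideal of the sets. -/
noncomputable def setIdeal (K : Type*) [Field K] : Ideal (MvPolynomial (Fin n) K) :=
  Ideal.span ((fun e => monomial e (1 : K)) '' {e | ∃ d, e ∈ T d})

variable {T} (hdeg : ∀ d, ∀ e ∈ T d, e.degree = d)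
  (hsq : ∀ d, ∀ e : Fin n →₀ ℕ, e.degree = d → (∃ i, 2 ≤ e i) → e ∈ T d)
  (hcl : ∀ d, ∀ e ∈ T d, ∀ v, e + Finsupp.single v 1 ∈ T (d + 1))

include hdeg hcl in
lemma mem_of_le {e e' : Fin n →₀ ℕ} (he : e ∈ T e.degree) (hle : e ≤ e') :
    e' ∈ T e'.degree := by
  obtain ⟨c, rfl⟩ := le_iff_exists_add.1 hle
  clear hle
  induction c using Finsupp.induction with
  | zero => simpa using he
  | single_add a m f _ hm ih =>
    clear hm
    induction m with
    | zero => simpa using ih
    | succ m ihm =>
      have h := hcl _ _ ihm a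
      rw [show e + (Finsupp.single a (m + 1) + f) =
        e + (Finsupp.single a m + f) + Finsupp.single a 1 by
          rw [Finsupp.single_add]; abel]
      have hd := hdeg _ _ h
      rwa [hd]

include hdeg hcl in
lemma mem_setIdeal {u : MvPolynomial (Fin n) K} :
    u ∈ setIdeal T K ↔ ∀ e ∈ u.support, e ∈ T e.degree := by
  rw [setIdeal, mem_ideal_span_monomial_image]
  constructor
  · intro h e he
    obtain ⟨e0, ⟨d, hd⟩, hle⟩ := h e he
    exact mem_of_le hdeg hcl ((hdeg d e0 hd).symm ▸ hd) hle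
  · intro h e he
    exact ⟨e, ⟨_, h e he⟩, le_rfl⟩

include hdeg hcl in
lemma finrank_degPart_setIdeal (d : ℕ) :
    finrank K (degPart d (setIdeal T K)) = (T d).card := by
  have h : setIdeal T K =
      Ideal.span ((fun e => monomial e (1 : K)) '' {e | e ∈ T e.degree}) := by
    rw [setIdeal]
    congr 2
    ext e
    refine ⟨fun ⟨d, hd⟩ => ?_, fun he => ⟨_, he⟩⟩
    show e ∈ T e.degree
    rw [hdeg d e hd]
    exact hd
  rw [h, finrank_monomialIdeal {e : Fin n →₀ ℕ | e ∈ T e.degree}
    (fun e he e' hle => mem_of_le hdeg hcl he hle),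
    ← Nat.card_eq_finsetCard]
  refine Nat.card_congr (Equiv.subtypeEquivRight fun e => ?_)
  simp only [Set.mem_ofPred_eq]
  exact ⟨fun ⟨h1, h2⟩ => h1 ▸ h2, fun h => ⟨hdeg d e h, (hdeg d e h).symm ▸ h⟩⟩

include hdeg hsq hcl in
lemma ker_cellCoeff (p d : ℕ) {w : Kos K n} (hw : w ∈ chains p d) :
    cellCoeff (outside T) p d w = 0 ↔ w ∈ inI (setIdeal T K) := by
  constructor
  · intro h T' _
    show w T' ∈ setIdeal T K
    rw [mem_setIdeal hdeg hcl]
    intro e he
    obtain ⟨hhom, hcard⟩ := mem_chains.1 hw T'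
    have hed : e.degree = d := by
      by_contra hne
      exact (MvPolynomial.mem_support_iff.1 he) (hhom.coeff_eq_zero hne)
    by_cases h2 : ∃ i, 2 ≤ e i
    · exact hsq _ e rfl h2
    · push Not at h2
      have hi : ind (Finset.univ.filter fun i => e i = 1) = e := by
        ext i
        have := h2 i
        simp only [ind_apply, Finset.mem_filter, Finset.mem_univ, true_and]
        split_ifs <;> omega
      by_contra hne
      have hT' : T'.card = p := by
        by_contra hp
        rw [hcard hp] at he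
        simp at he
      have hSd : (Finset.univ.filter fun i => e i = 1).card = d := by rw [← degree_ind, hi, hed]
      have := congrFun h ⟨(T', Finset.univ.filter fun i => e i = 1), hT',
        mem_outside.2 (by rw [hi, hSd, ← hed]; exact hne), hSd⟩
      rw [cellCoeff_apply, Pi.zero_apply] at this
      simp only [hi] at this
      rcases mul_eq_zero.1 this with h0 | h0
      · exact left_ne_zero_of_mul (cast_eps_sq (K := K) _ _ ▸ one_ne_zero) h0
      · exact (MvPolynomial.mem_support_iff.1 he) h0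
  · intro h
    funext x
    obtain ⟨⟨T', S⟩, hT', hS, hSd⟩ := x
    rw [cellCoeff_apply, Pi.zero_apply]
    by_contra hne
    have hmem := (mem_setIdeal hdeg hcl).1 (h T' trivial) (ind S)
      (MvPolynomial.mem_support_iff.2 (right_ne_zero_of_mul hne))
    rw [degree_ind] at hmem
    exact mem_outside.1 hS hmem

include hdeg hsq hcl in
lemma rkI_setIdeal (p d : ℕ) :
    rkI (setIdeal T K) (p + 1) d = rk K (outside T) (p + 1) d := by
  classical
  set N := (chains (K := K) (n := n) (p + 1) d).map kos with hN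
  have h1 := finrank_map_add_ker (inI (setIdeal T K)).mkQ N
  have h2 := finrank_map_add_ker (cellCoeff (outside T) p (d + 1)) N
  have hk : N ⊓ LinearMap.ker (inI (setIdeal T K)).mkQ =
      N ⊓ LinearMap.ker (cellCoeff (outside T) p (d + 1)) := by
    rw [Submodule.ker_mkQ]
    ext w
    simp only [Submodule.mem_inf, LinearMap.mem_ker]
    refine and_congr_right fun hw => ?_
    obtain ⟨v, hv, rfl⟩ := hw
    exact (ker_cellCoeff hdeg hsq hcl p (d + 1) (kos_mem_chains hv)).symm
  rw [hk] at h1
  have h3 : N.map (cellCoeff (outside T) p (d + 1)) =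
      LinearMap.range (bd K (outside T) p d).mulVecLin := by
    rw [← Submodule.map_top, ← map_cellCoeff_chains (K := K) (outside T) (p + 1) d, hN]
    ext w
    simp only [Submodule.mem_map]
    constructor
    · rintro ⟨_, ⟨v, hv, rfl⟩, rfl⟩
      exact ⟨_, ⟨v, hv, rfl⟩, (cellCoeff_kos (isDown_outside hcl) p d hv).symm⟩
    · rintro ⟨_, ⟨v, hv, rfl⟩, rfl⟩
      exact ⟨_, ⟨v, hv, rfl⟩, cellCoeff_kos (isDown_outside hcl) p d hv⟩
  rw [h3] at h2
  rw [rkI, Submodule.map_comp, ← hN]
  show _ = (bd K (outside T) p d).rank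
  rw [Matrix.rank]
  omega

include hdeg hsq hcl in
/-- The Betti numbers of the monomial ideal. -/
theorem betti_setIdeal (p d : ℕ) :
    betti (setIdeal T K) p (p + d) = hdim K (outside T) p d := by
  have hrk : ∀ q e, rkI (setIdeal T K) q e = rk K (outside T) q e := by
    intro q e
    cases q with
    | zero => rw [rkI_zero, rk_zero]
    | succ q => exact rkI_setIdeal hdeg hsq hcl q e
  have hl := card_level_outside K (hdeg d) (hsq d)
  rw [betti_eq, finrank_degPart_setIdeal hdeg hcl, ← hl, Nat.add_sub_cancel_right, hdim, card_cell,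
    hrk, hrk]

end Vale.Agent.P200.Betti
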