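import Vale.Agent.P200.Betti.ShiftDiff

/-!
One shift does not increase any rank of the complex.
-/

namespace Vale.Agent.P200.Betti.Shift

open Finset Module

variable {n : ℕ} {F : Type*} [Field F]

/-- The pairs which are cells of `Δ` in a given position. -/
def InCell (Δ : Finset (Finset (Fin n))) (p d : ℕ) (z : Pair n) : Prop :=
  z.1.card = p ∧ z.2 ∈ Δ ∧ z.2.card = d

variable (F)

/-- The functions supported on the cells of `Δ` in a given position. -/
def supp (Δ : Finset (Finset (Fin n))) (p d : ℕ) : Submodule F (Pair n → F) where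
  carrier := {f | ∀ z, ¬ InCell Δ p d z → f z = 0}
  add_mem' hf hg z hz := by simp [hf z hz, hg z hz]
  zero_mem' z _ := rfl
  smul_mem' c f hf z hz := by simp [hf z hz]

variable {F}

lemma mem_supp {Δ : Finset (Finset (Fin n))} {p d : ℕ} {f : Pair n → F} :
    f ∈ supp F Δ p d ↔ ∀ z, ¬ InCell Δ p d z → f z = 0 := Iff.rfl

lemma level_dd {z : Pair n} {k : Fin n} (hk : k ∈ z.2 \ z.1) {p d : ℕ}
    (h1 : (insert k z.1).card = p + 1) (h2 : (z.2.erase k).card = d) :
    z.1.card = p ∧ z.2.card = d + 1 := by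
  obtain ⟨hk2, hk1⟩ := mem_sdiff.1 hk
  rw [card_insert_of_notMem hk1] at h1
  refine ⟨by omega, ?_⟩
  rw [← card_erase_add_one hk2, h2]

lemma dd_level {Δ : Finset (Finset (Fin n))} {p d : ℕ} {f : Pair n → F}
    (hf : f ∈ supp F Δ (p + 1) d) {z : Pair n} (hz : ¬(z.1.card = p ∧ z.2.card = d + 1)) :
    dd F f z = 0 := by
  rw [dd_apply]
  exact sum_eq_zero fun k hk => by
    rw [hf _ fun h => hz (level_dd hk h.1 h.2.2), mul_zero]

lemma keep_mem {Δ : Finset (Finset (Fin n))} {p d : ℕ} {f : Pair n → F} (Z : Pair n → Prop)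
    (hf : f ∈ supp F Δ p d) : keep F Z f ∈ supp F Δ p d := fun z hz => by
  classical
  simp [keep_apply, hf z hz]

lemma keep_add_keep (Z : Pair n → Prop) (f : Pair n → F) :
    keep F (fun z => ¬ Z z) f + keep F Z f = f := by
  classical
  funext z
  by_cases h : Z z <;> simp [keep_apply, h]

lemma keep_keep (Z : Pair n → Prop) (f : Pair n → F) : keep F Z (keep F Z f) = keep F Z f := by
  classical
  funext z
  by_cases h : Z z <;> simp [keep_apply, h]

lemma keep_keep_not (Z : Pair n → Prop) (f : Pair n → F) :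
    keep F Z (keep F (fun z => ¬ Z z) f) = 0 := by
  classical
  funext z
  by_cases h : Z z <;> simp [keep_apply, h]

/-- `Δ'` is obtained from `Δ` by shifting `i` to `j`. -/
def IsSh (i j : Fin n) (Δ Δ' : Finset (Finset (Fin n))) : Prop :=
  ∀ S, S ∈ Δ' ↔ (S ∈ Δ ∧ (i ∈ S → j ∉ S → sw i j S ∈ Δ)) ∨ (j ∈ S ∧ i ∉ S ∧ sw i j S ∈ Δ)

lemma IsSh.self {i j : Fin n} {Δ Δ' : Finset (Finset (Fin n))} (h : IsSh i j Δ Δ') :
    IsSh i j Δ' Δ' := by
  intro S
  have h1 := h S
  have h2 := h (sw i j S)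
  simp only [mem_sw_left, mem_sw_right, sw_sw] at h2
  tauto

variable (F)

/-- The new vectors of `Δ'`, read in the complex of `Δ`. -/
noncomputable def basisMap (i j : Fin n) (Δ : Finset (Finset (Fin n))) :
    (Pair n → F) →ₗ[F] (Pair n → F) :=
  prj F Δ ∘ₗ tm F i j

/-- The part of the boundary going from the second kind to the first. -/
noncomputable def corner (i j : Fin n) (Δ Δ' : Finset (Finset (Fin n))) :
    (Pair n → F) →ₗ[F] (Pair n → F) :=
  keep F (fun w => Fst i j w ∧ (swp i j w).2 ∈ Δ ∧ (swp i j w).2 ∉ Δ') ∘ₗ sig F i j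

/-- The two diagonal blocks of the boundary. -/
noncomputable def diag (i j : Fin n) (Δ' : Finset (Finset (Fin n))) :
    (Pair n → F) →ₗ[F] (Pair n → F) :=
  prj F Δ' ∘ₗ keep F (fun z => ¬ Snd i j z) ∘ₗ dd F ∘ₗ keep F (fun z => ¬ Snd i j z) +
    prj F Δ' ∘ₗ dd F ∘ₗ keep F (Snd i j)

/-- The boundary written in the new vectors. -/
noncomputable def gmap (i j : Fin n) (Δ Δ' : Finset (Finset (Fin n))) :
    (Pair n → F) →ₗ[F] (Pair n → F) :=
  diag F i j Δ' + corner F i j Δ Δ' ∘ₗ dd F ∘ₗ keep F (Snd i j)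

variable {F}

variable {i j : Fin n} {Δ Δ' : Finset (Finset (Fin n))}

lemma sw_eq_of_not_moved {S : Finset (Fin n)} (h1 : ¬(i ∈ S ∧ j ∉ S)) (h2 : ¬(j ∈ S ∧ i ∉ S)) :
    sw i j S = S := sw_eq_self (by tauto)

lemma basisMap_fst (hs : IsSh i j Δ Δ') {g : Pair n → F} (hg : ∀ z, Snd i j z → g z = 0) :
    basisMap F i j Δ g = basisMap F i j Δ (prj F Δ' g) := by
  classical
  funext z
  simp only [basisMap, LinearMap.comp_apply, prj_apply, tm_apply]
  by_cases hz : z.2 ∈ Δ
  swap
  · simp [hz]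
  have key : ∀ w : Pair n, (w.2 ∈ Δ ∨ sw i j w.2 ∈ Δ) → (if w.2 ∈ Δ' then g w else 0) = g w := by
    intro w hw
    by_cases hs2 : Snd i j w
    · simp [hg w hs2]
    · rw [if_pos]
      have hc : ¬(i ∈ w.2 ∧ j ∉ w.2) := by
        unfold Snd at hs2
        tauto
      rw [hs]
      rcases hw with hw | hw
      · exact Or.inl ⟨hw, fun a b => absurd ⟨a, b⟩ hc⟩
      · by_cases hm : j ∈ w.2 ∧ i ∉ w.2
        · exact Or.inr ⟨hm.1, hm.2, hw⟩
        · rw [sw_eq_of_not_moved hc hm] at hw
          exact Or.inl ⟨hw, fun a b => absurd ⟨a, b⟩ hc⟩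
  rw [key z (Or.inl hz), key (swp i j z) (Or.inr (by simp [swp, hz]))]

lemma basisMap_snd (hs : IsSh i j Δ Δ') {g : Pair n → F} (hg : ∀ z, ¬ Snd i j z → g z = 0) :
    prj F Δ g = basisMap F i j Δ (prj F Δ' g + corner F i j Δ Δ' g) := by
  classical
  funext z
  simp only [basisMap, corner, LinearMap.comp_apply, prj_apply, tm_apply, keep_apply, sig_apply,
    Pi.add_apply, swp_swp]
  by_cases hz : z.2 ∈ Δ
  swap
  · simp [hz]
  rw [if_pos hz, if_pos hz]
  have hfirst : ¬(Fst i j z ∧ (swp i j z).2 ∈ Δ ∧ (swp i j z).2 ∉ Δ') := by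
    rintro ⟨-, h1, h2⟩
    refine h2 ((hs _).2 (Or.inl ⟨h1, fun _ _ => ?_⟩))
    simpa [swp] using hz
  rw [if_neg hfirst, add_zero]
  by_cases hP : Fst i j (swp i j z)
  · rw [if_pos hP, hg _ hP.not_snd]
    by_cases hz' : z.2 ∈ Δ'
    · simp [hz']
    · simp only [ite_self, zero_add, hP, hz, hz', if_false, not_false_eq_true, and_self, if_true]
      rw [show (swp i j z).2 = sw i j z.2 from rfl, eps_sw, ← mul_assoc, eps_mul_self, one_mul]
  · rw [if_neg hP, add_zero]
    by_cases hS : Snd i j z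
    · rw [if_pos]
      refine (hs _).2 (Or.inl ⟨hz, fun a b => ?_⟩)
      obtain ⟨-, -, -, h4⟩ := (fst_swp_or hS).resolve_left hP
      exact absurd h4 b
    · simp [hg z hS]

lemma dd_snd {i j : Fin n} (hij : (i : ℕ) + 1 = j) {f : Pair n → F}
    (hf : ∀ z, ¬ Snd i j z → f z = 0) {z : Pair n} (hz : ¬ Snd i j z) : dd F f z = 0 := by
  rw [dd_apply]
  exact sum_eq_zero fun k hk => by
    rw [hf _ fun h => hz (snd_pred (ne_of_succ hij) hk h), mul_zero]

lemma tm_snd {f : Pair n → F} (hf : ∀ z, ¬ Snd i j z → f z = 0) : tm F i j f = f := by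
  classical
  funext z
  rw [tm_apply]
  by_cases h : Fst i j (swp i j z)
  · rw [if_pos h, hf _ h.not_snd, mul_zero, add_zero]
  · rw [if_neg h, add_zero]

/-- The boundary of `Δ` in the new vectors is `gmap`. -/
theorem dd_basisMap (hij : (i : ℕ) + 1 = j) (hΔ : IsDown Δ) (hs : IsSh i j Δ Δ')
    (f : Pair n → F) :
    prj F Δ (dd F (basisMap F i j Δ f)) = basisMap F i j Δ (gmap F i j Δ Δ' f) := by
  classical
  have hU : ∀ z, Snd i j z → keep F (fun z => ¬ Snd i j z) f z = 0 := fun z h => by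
    simp [keep_apply, h]
  have hV : ∀ z, ¬ Snd i j z → keep F (Snd i j) f z = 0 := fun z h => by
    simp [keep_apply, h]
  have hg : ∀ z, Snd i j z →
      keep F (fun z => ¬ Snd i j z) (dd F (keep F (fun z => ¬ Snd i j z) f)) z = 0 :=
    fun z h => by simp [keep_apply, h]
  calc prj F Δ (dd F (basisMap F i j Δ f)) = prj F Δ (dd F (tm F i j f)) := prj_dd_prj hΔ _
    _ = prj F Δ (dd F (tm F i j (keep F (fun z => ¬ Snd i j z) f))) +
          prj F Δ (dd F (keep F (Snd i j) f)) := by
        conv_lhs => rw [← keep_add_keep (Snd i j) f]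
        rw [map_add, map_add, map_add, tm_snd hV]
    _ = basisMap F i j Δ (keep F (fun z => ¬ Snd i j z)
          (dd F (keep F (fun z => ¬ Snd i j z) f))) + prj F Δ (dd F (keep F (Snd i j) f)) := by
        rw [dd_tm hij hU]; rfl
    _ = _ := by
        rw [basisMap_fst hs hg, basisMap_snd hs (fun z h => dd_snd hij hV h)]
        simp only [gmap, diag, LinearMap.add_apply, LinearMap.comp_apply, map_add, add_assoc]

lemma prj_level_mem {p d : ℕ} {g : Pair n → F}
    (hg : ∀ z : Pair n, ¬(z.1.card = p ∧ z.2.card = d) → g z = 0) :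
    prj F Δ g ∈ supp F Δ p d := fun z hz => by
  classical
  rw [prj_apply]
  split_ifs with h
  · exact hg z fun h2 => hz ⟨h2.1, h, h2.2⟩
  · rfl

lemma level_of_mem {p d : ℕ} {g : Pair n → F} (hg : g ∈ supp F Δ p d) (z : Pair n)
    (hz : ¬(z.1.card = p ∧ z.2.card = d)) : g z = 0 :=
  hg z fun h => hz ⟨h.1, h.2.2⟩

lemma corner_mem (hs : IsSh i j Δ Δ') {p d : ℕ} {g : Pair n → F}
    (hg : ∀ z : Pair n, ¬(z.1.card = p ∧ z.2.card = d) → g z = 0) :
    corner F i j Δ Δ' g ∈ supp F Δ' p d := fun z hz => by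
  classical
  simp only [corner, LinearMap.comp_apply, keep_apply, sig_apply]
  split_ifs with h
  swap
  · rfl
  obtain ⟨-, h1, h2⟩ := h
  rw [hg, mul_zero]
  rintro ⟨a, b⟩
  simp only [swp, card_sw] at a b
  refine hz ⟨a, ?_, b⟩
  have h3 := hs (swp i j z).2
  simp only [swp] at h1 h2 h3
  simp only [h1, true_and, mem_sw_left, mem_sw_right, sw_sw] at h3
  rw [hs]
  refine Or.inr ?_
  tauto

lemma diag_mem {p d : ℕ} {f : Pair n → F} (hf : f ∈ supp F Δ' (p + 1) d) :
    diag F i j Δ' f ∈ supp F Δ' p (d + 1) := by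
  classical
  simp only [diag, LinearMap.add_apply, LinearMap.comp_apply]
  refine Submodule.add_mem _ (prj_level_mem fun z hz => ?_)
    (prj_level_mem fun z hz => dd_level (keep_mem _ hf) hz)
  simp [keep_apply, dd_level (keep_mem _ hf) hz]

lemma gmap_mem (hs : IsSh i j Δ Δ') {p d : ℕ} {f : Pair n → F}
    (hf : f ∈ supp F Δ' (p + 1) d) : gmap F i j Δ Δ' f ∈ supp F Δ' p (d + 1) := by
  simp only [gmap, LinearMap.add_apply, LinearMap.comp_apply]
  exact Submodule.add_mem _ (diag_mem hf) (corner_mem hs fun z hz => dd_level (keep_mem _ hf) hz)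

lemma basisMap_mem {p d : ℕ} {f : Pair n → F} (hf : f ∈ supp F Δ' p d) :
    basisMap F i j Δ f ∈ supp F Δ p d := by
  classical
  refine prj_level_mem fun z hz => ?_
  rw [tm_apply, level_of_mem hf z hz, zero_add]
  split_ifs
  · rw [level_of_mem hf (swp i j z) (by simpa [swp] using hz), mul_zero]
  · rfl

lemma basisMap_inj (hs : IsSh i j Δ Δ') {p d : ℕ} {g : Pair n → F} (hg : g ∈ supp F Δ' p d)
    (h0 : basisMap F i j Δ g = 0) : g = 0 := by
  classical
  have hval : ∀ z : Pair n, z.2 ∈ Δ →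
      g z + (if Fst i j (swp i j z) then (eps i j z.2 : F) * g (swp i j z) else 0) = 0 := by
    intro z hz
    have := congrFun h0 z
    simpa [basisMap, prj_apply, tm_apply, hz] using this
  have hsup : ∀ z, z.2 ∉ Δ' → g z = 0 := fun z hz => hg z fun h => hz h.2.1
  have hU : ∀ z, ¬ Snd i j z → g z = 0 := by
    intro z hz
    by_cases hz' : z.2 ∈ Δ'
    swap
    · exact hsup z hz'
    by_cases hzd : z.2 ∈ Δ
    · have := hval z hzd
      rwa [if_neg (fun h : Fst i j (swp i j z) => hz h.snd_swp), add_zero] at this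
    · rcases (hs _).1 hz' with h | ⟨h1, h2, h3⟩
      · exact absurd h.1 hzd
      · have hP : Fst i j z := Or.inl ⟨h1, h2⟩
        have := hval (swp i j z) h3
        rw [swp_swp, if_pos hP, hsup (swp i j z) ?_, zero_add] at this
        · have hu := congrArg (fun t => (eps i j (swp i j z).2 : F) * t) this
          simpa [← mul_assoc, eps_mul_self] using hu
        · intro h
          rcases (hs _).1 h with ⟨-, h5⟩ | ⟨h4, h5, -⟩
          · simp only [swp, mem_sw_left, mem_sw_right, sw_sw] at h5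
            exact hzd (h5 h1 h2)
          · simp only [swp, mem_sw_left, mem_sw_right] at h4 h5
            exact h5 h1
  funext z
  by_cases hz : Snd i j z
  swap
  · exact hU z hz
  by_cases hz' : z.2 ∈ Δ'
  swap
  · exact hsup z hz'
  have hzd : z.2 ∈ Δ := by
    rcases (hs _).1 hz' with h | ⟨h1, h2, -⟩
    · exact h.1
    · unfold Snd at hz
      tauto
  have := hval z hzd
  by_cases hP : Fst i j (swp i j z)
  · rwa [if_pos hP, hU _ hP.not_snd, mul_zero, add_zero] at this
  · rwa [if_neg hP, add_zero] at this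

lemma finrank_map_inj {R : Submodule F (Pair n → F)} {L : (Pair n → F) →ₗ[F] (Pair n → F)}
    (h : ∀ g ∈ R, L g = 0 → g = 0) : finrank F (R.map L) = finrank F R := by
  rw [← LinearMap.range_domRestrict]
  refine LinearMap.finrank_range_of_inj ((injective_iff_map_eq_zero _).2 ?_)
  intro g hg
  exact Subtype.ext (h g g.2 hg)

lemma finrank_map_le' (R : Submodule F (Pair n → F)) (L : (Pair n → F) →ₗ[F] (Pair n → F)) :
    finrank F (R.map L) ≤ finrank F R :=
  Submodule.finrank_map_le L R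

/-- The diagonal blocks have at most the rank of the whole boundary. -/
lemma finrank_diag_le (hij : (i : ℕ) + 1 = j) (p d : ℕ) :
    finrank F ((supp F Δ' (p + 1) d).map (diag F i j Δ')) ≤
      finrank F ((supp F Δ' (p + 1) d).map (gmap F i j Δ Δ')) := by
  classical
  set X := supp F Δ' (p + 1) d
  set R := X.map (gmap F i j Δ Δ')
  set A : (Pair n → F) →ₗ[F] (Pair n → F) :=
    prj F Δ' ∘ₗ keep F (fun z => ¬ Snd i j z) ∘ₗ dd F ∘ₗ keep F (fun z => ¬ Snd i j z)
  set B : (Pair n → F) →ₗ[F] (Pair n → F) := prj F Δ' ∘ₗ dd F ∘ₗ keep F (Snd i j)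
  set V : (Pair n → F) →ₗ[F] (Pair n → F) := keep F (Snd i j)
  have hle : X.map (diag F i j Δ') ≤ X.map A ⊔ X.map B := by
    rintro _ ⟨f, hf, rfl⟩
    exact Submodule.add_mem_sup ⟨f, hf, rfl⟩ ⟨f, hf, rfl⟩
  have hkill : ∀ f, V (A f) = 0 := by
    intro f
    funext z
    by_cases h : Snd i j z <;> simp [V, A, keep_apply, prj_apply, h]
  have hA : X.map A ≤ R ⊓ LinearMap.ker V := by
    rintro _ ⟨f, hf, rfl⟩
    refine ⟨⟨keep F (fun z => ¬ Snd i j z) f, keep_mem _ hf, ?_⟩, hkill f⟩
    simp only [A, gmap, diag, LinearMap.add_apply, LinearMap.comp_apply, keep_keep_not, keep_keep,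
      map_zero, add_zero]
  have hB : X.map B ≤ R.map V := by
    rintro _ ⟨f, hf, rfl⟩
    refine ⟨gmap F i j Δ Δ' f, ⟨f, hf, rfl⟩, ?_⟩
    funext z
    by_cases h : Snd i j z
    · simp [gmap, diag, corner, B, V, keep_apply, prj_apply, sig_apply, h]
      exact fun hP => absurd h hP.not_snd
    · simp only [V, keep_apply, if_neg h, B, LinearMap.comp_apply, prj_apply]
      rw [dd_snd hij (fun w hw => by simp [keep_apply, hw]) h, ite_self]
  have hk : finrank F (R.map V) + finrank F (R ⊓ LinearMap.ker V : Submodule F (Pair n → F)) =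
      finrank F R := by
    rw [← LinearMap.finrank_range_add_finrank_ker (V.domRestrict R), LinearMap.range_domRestrict]
    congr 1
    have e : LinearMap.ker (V.domRestrict R) = (R ⊓ LinearMap.ker V).comap R.subtype := by
      ext x
      simp
    rw [e]
    exact (Submodule.comapSubtypeEquivOfLe inf_le_left).finrank_eq.symm
  calc finrank F (X.map (diag F i j Δ')) ≤ finrank F (X.map A ⊔ X.map B : Submodule F _) :=
        Submodule.finrank_mono hle
    _ ≤ finrank F (X.map A) + finrank F (X.map B) := Submodule.finrank_add_le_finrank_add_finrank _ _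
    _ ≤ finrank F (R ⊓ LinearMap.ker V : Submodule F (Pair n → F)) + finrank F (R.map V) :=
        Nat.add_le_add (Submodule.finrank_mono hA) (Submodule.finrank_mono hB)
    _ = finrank F R := by rw [add_comm, hk]

/-- The rank of the boundary leaving a position, on all pairs. -/
noncomputable def rankAt (F : Type*) [Field F] (Δ : Finset (Finset (Fin n))) (p d : ℕ) : ℕ :=
  finrank F ((supp F Δ (p + 1) d).map (prj F Δ ∘ₗ dd F))

/-- The shift does not increase the rank. -/
theorem rankAt_shift_le (hij : (i : ℕ) + 1 = j) (hΔ : IsDown Δ) (hΔ' : IsDown Δ')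
    (hs : IsSh i j Δ Δ') (p d : ℕ) : rankAt F Δ' p d ≤ rankAt F Δ p d := by
  classical
  set X := supp F Δ' (p + 1) d
  have hlower : finrank F (X.map (gmap F i j Δ Δ')) ≤ rankAt F Δ p d := by
    rw [← finrank_map_inj (R := X.map (gmap F i j Δ Δ')) (L := basisMap F i j Δ)]
    · refine Submodule.finrank_mono ?_
      rintro _ ⟨_, ⟨f, hf, rfl⟩, rfl⟩
      exact ⟨basisMap F i j Δ f, basisMap_mem hf, dd_basisMap hij hΔ hs f⟩
    · rintro _ ⟨f, hf, rfl⟩ h0
      exact basisMap_inj hs (gmap_mem hs hf) h0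
  have hself := hs.self
  have hcorner : corner F i j Δ' Δ' = 0 := by
    ext g z
    simp [corner, keep_apply]
  have hupper : rankAt F Δ' p d ≤ finrank F (X.map (diag F i j Δ')) := by
    refine le_trans (Submodule.finrank_mono ?_) (finrank_map_le' _ (basisMap F i j Δ'))
    rintro _ ⟨f, hf, rfl⟩
    set g := f - prj F Δ' (sig F i j (keep F (Fst i j) f)) with hgdef
    have hg : g ∈ X := by
      refine Submodule.sub_mem _ hf (prj_level_mem fun z hz => ?_)
      rw [sig_apply, keep_apply]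
      split_ifs
      · rw [level_of_mem hf (swp i j z) (by simpa [swp] using hz), mul_zero]
      · rw [mul_zero]
    have hgf : basisMap F i j Δ' g = f := by
      funext z
      simp only [hgdef, basisMap, LinearMap.comp_apply, prj_apply, tm_apply, sig_apply,
        keep_apply, Pi.sub_apply, swp_swp]
      by_cases hz : z.2 ∈ Δ'
      swap
      · rw [if_neg hz, hf z fun h => hz h.2.1]
      rw [if_pos hz]
      by_cases hP : Fst i j (swp i j z)
      · have hn : ¬ Fst i j z := fun h => hP.not_snd (Fst.snd_swp (by rwa [swp_swp]))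
        simp [hz, hP, hn]
      · simp [hP]
    refine ⟨diag F i j Δ' g, ⟨g, hg, rfl⟩, ?_⟩
    rw [LinearMap.comp_apply, ← hgf, dd_basisMap hij hΔ' hself, gmap, hcorner]
    simp
  exact le_trans hupper (le_trans (finrank_diag_le hij p d) hlower)

end Vale.Agent.P200.Betti.Shift
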