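import Vale.Agent.P200.Betti.Basic
import Vale.Agent.P200.Betti.ShiftRank

/-!
Shifting a simplicial complex until it is shifted, without decreasing any Betti number.
-/

namespace Vale.Agent.P200.Betti

open Finset Module

variable {n : ℕ}

namespace Shift

open Classical in
/-- A cell function extended by zero to all pairs. -/
noncomputable def ext (F : Type*) [Field F] (Δ : Finset (Finset (Fin n))) (p d : ℕ) :
    (Cell Δ p d → F) →ₗ[F] (Pair n → F) where
  toFun c := fun z => ∑ x, if x.1 = z then c x else 0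
  map_add' a b := by
    funext z
    simp only [Pi.add_apply, ← sum_add_distrib]
    exact sum_congr rfl fun x _ => by split_ifs <;> simp
  map_smul' a b := by
    funext z
    simp only [Pi.smul_apply, smul_eq_mul, RingHom.id_apply, mul_sum]
    exact sum_congr rfl fun x _ => by split_ifs <;> simp

variable {F : Type*} [Field F] {Δ : Finset (Finset (Fin n))} {p d : ℕ}

lemma ext_apply_cell (c : Cell Δ p d → F) (x : Cell Δ p d) : ext F Δ p d c x.1 = c x := by
  classical
  simp [ext, Subtype.coe_injective.eq_iff]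

lemma ext_apply_off (c : Cell Δ p d → F) {z : Pair n} (hz : ¬ InCell Δ p d z) :
    ext F Δ p d c z = 0 := by
  classical
  refine sum_eq_zero fun x _ => if_neg ?_
  intro h
  exact hz (h ▸ x.2)

lemma ext_injective : Function.Injective (ext F Δ p d) := fun a b h => by
  funext x
  have := congrFun h x.1
  rwa [ext_apply_cell, ext_apply_cell] at this

lemma range_ext : LinearMap.range (ext F Δ p d) = supp F Δ p d := by
  classical
  refine le_antisymm ?_ fun f hf => ?_
  · rintro _ ⟨c, rfl⟩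
    exact fun z hz => ext_apply_off c hz
  · refine ⟨fun x => f x.1, ?_⟩
    funext z
    by_cases hz : InCell Δ p d z
    · exact ext_apply_cell _ ⟨z, hz⟩
    · rw [ext_apply_off _ hz, hf z hz]

lemma prj_dd_ext (c : Cell Δ (p + 1) d → F) :
    prj F Δ (dd F (ext F Δ (p + 1) d c)) = ext F Δ p (d + 1) ((bd F Δ p d).mulVec c) := by
  classical
  funext z
  by_cases hz : InCell Δ p (d + 1) z
  swap
  · rw [ext_apply_off _ hz, prj_apply]
    split_ifs with h
    · exact dd_level (fun w hw => ext_apply_off c hw) fun h2 => hz ⟨h2.1, h, h2.2⟩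
    · rfl
  rw [ext_apply_cell _ ⟨z, hz⟩, prj_apply, if_pos hz.2.1, dd_apply]
  simp only [Matrix.mulVec, dotProduct, bd, ext, LinearMap.coe_mk, AddHom.coe_mk, mul_sum]
  rw [sum_comm]
  refine sum_congr rfl fun x _ => ?_
  simp only [mul_ite, mul_zero, sum_mul, ite_mul, zero_mul]
  rw [← sum_filter, ← sum_filter]
  have e : (z.2 \ z.1).filter (fun k => x.1 = (insert k z.1, z.2.erase k)) =
      (x.1.1 \ x.1.2).filter (fun k => z.1 = x.1.1.erase k ∧ z.2 = insert k x.1.2) := by
    ext k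
    simp only [mem_filter, mem_sdiff, Prod.ext_iff]
    constructor
    · rintro ⟨⟨h2, h1⟩, e1, e2⟩
      rw [e1, e2]
      exact ⟨⟨mem_insert_self _ _, notMem_erase _ _⟩, (erase_insert h1).symm, (insert_erase h2).symm⟩
    · rintro ⟨⟨h2, h1⟩, e1, e2⟩
      rw [e1, e2]
      exact ⟨⟨mem_insert_self _ _, notMem_erase _ _⟩, (insert_erase h2).symm, (erase_insert h1).symm⟩
  rw [e]
  refine sum_congr rfl fun k hk => ?_
  obtain ⟨-, -, e2⟩ := mem_filter.1 hk
  have h1 : k ∉ x.1.2 := (mem_sdiff.1 (mem_filter.1 hk).1).2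
  rw [e2, ← sgn_erase k (insert k x.1.2), erase_insert h1]

lemma rk_succ (F : Type*) [Field F] (Δ : Finset (Finset (Fin n))) (p d : ℕ) :
    rk F Δ (p + 1) d = rankAt F Δ p d := by
  have h : (prj F Δ ∘ₗ dd F) ∘ₗ ext F Δ (p + 1) d =
      ext F Δ p (d + 1) ∘ₗ (bd F Δ p d).mulVecLin :=
    LinearMap.ext fun c => prj_dd_ext c
  show (bd F Δ p d).rank = _
  rw [rankAt, ← range_ext, ← LinearMap.range_comp, h, LinearMap.range_comp, Matrix.rank]
  exact (Submodule.equivMapOfInjective _ ext_injective _).finrank_eq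

/-- One step of the shift on a member. -/
def mv (i j : Fin n) (Δ : Finset (Finset (Fin n))) (S : Finset (Fin n)) : Finset (Fin n) :=
  if i ∈ S ∧ j ∉ S ∧ sw i j S ∉ Δ then sw i j S else S

lemma card_mv (i j : Fin n) (Δ : Finset (Finset (Fin n))) (S : Finset (Fin n)) :
    (mv i j Δ S).card = S.card := by
  unfold mv; split_ifs <;> simp

lemma mv_injOn (i j : Fin n) (Δ : Finset (Finset (Fin n))) :
    Set.InjOn (mv i j Δ) (Δ : Set (Finset (Fin n))) := by
  intro S hS T hT h
  unfold mv at h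
  split_ifs at h with h1 h2 h2
  · simpa using congrArg (sw i j) h
  · exact absurd (h ▸ hT : sw i j S ∈ Δ) h1.2.2
  · exact absurd (h ▸ hS : sw i j T ∈ Δ) h2.2.2
  · exact h

/-- One shift of a complex. -/
def shiftOne (i j : Fin n) (Δ : Finset (Finset (Fin n))) : Finset (Finset (Fin n)) :=
  Δ.image (mv i j Δ)

lemma isSh_shiftOne (i j : Fin n) (Δ : Finset (Finset (Fin n))) :
    IsSh i j Δ (shiftOne i j Δ) := by
  intro S
  simp only [shiftOne, mem_image]
  constructor
  · rintro ⟨T, hT, rfl⟩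
    unfold mv
    split_ifs with h
    · exact Or.inr ⟨mem_sw_right.2 h.1, fun a => h.2.1 (mem_sw_left.1 a), by rwa [sw_sw]⟩
    · exact Or.inl ⟨hT, fun a b => by_contra fun c => h ⟨a, b, c⟩⟩
  · rintro (⟨hS, h⟩ | ⟨h1, h2, h3⟩)
    · exact ⟨S, hS, if_neg fun a => a.2.2 (h a.1 a.2.1)⟩
    · by_cases hS : S ∈ Δ
      · exact ⟨S, hS, if_neg fun a => h2 a.1⟩
      · refine ⟨sw i j S, h3, ?_⟩
        rw [mv, if_pos ⟨mem_sw_left.2 h1, fun a => h2 (mem_sw_right.1 a), by rwa [sw_sw]⟩, sw_sw]

lemma isDown_shiftOne {i j : Fin n} {Δ : Finset (Finset (Fin n))} (hΔ : IsDown Δ) :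
    IsDown (shiftOne i j Δ) := by
  intro S hS S' hsub
  have hs := isSh_shiftOne i j Δ
  rw [hs] at hS ⊢
  have hsw := sw_mono (i := i) (j := j) hsub
  by_cases hm : j ∈ S' ∧ i ∉ S'
  · rcases hS with ⟨h, -⟩ | ⟨-, -, h⟩
    · exact Or.inl ⟨hΔ _ h _ hsub, fun a => absurd a hm.2⟩
    · exact Or.inr ⟨hm.1, hm.2, hΔ _ h _ hsw⟩
  · rcases hS with ⟨h, h'⟩ | ⟨h1, h2, h⟩
    · refine Or.inl ⟨hΔ _ h _ hsub, fun a b => hΔ _ ?_ _ hsw⟩
      by_cases hj : j ∈ S
      · rwa [sw_eq_self (iff_of_true (hsub a) hj)]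
      · exact h' (hsub a) hj
    · have hi : i ∉ S' := fun a => h2 (hsub a)
      have hj : j ∉ S' := fun a => hm ⟨a, hi⟩
      have e : sw i j S' = S' := sw_eq_self (iff_of_false hi hj)
      exact Or.inl ⟨e ▸ hΔ _ h _ hsw, fun a => absurd a hi⟩

lemma level_shiftOne (i j : Fin n) (Δ : Finset (Finset (Fin n))) (d : ℕ) :
    (level (shiftOne i j Δ) d).card = (level Δ d).card := by
  classical
  rw [level, shiftOne, filter_image]
  simp only [card_mv]
  exact card_image_of_injOn ((mv_injOn i j Δ).mono (coe_subset.2 (filter_subset _ _)))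

/-- The total weight of a complex. -/
def weight (Δ : Finset (Finset (Fin n))) : ℕ := ∑ S ∈ Δ, ∑ k ∈ S, (k : ℕ)

lemma weight_le (Δ : Finset (Finset (Fin n))) :
    weight Δ ≤ weight (univ : Finset (Finset (Fin n))) :=
  sum_le_sum_of_subset (subset_univ _)

lemma weight_sw {i j : Fin n} (hij : (i : ℕ) + 1 = j) {S : Finset (Fin n)} (hi : i ∈ S)
    (hj : j ∉ S) : ∑ k ∈ sw i j S, (k : ℕ) = (∑ k ∈ S, (k : ℕ)) + 1 := by
  have e : sw i j S = insert j (S.erase i) := by
    ext k
    by_cases h1 : k = i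
    · subst h1; simp [hj, ne_of_succ hij]
    by_cases h2 : k = j
    · subst h2; simp [hi]
    simp [mem_sw_of_ne h1 h2, h1, h2]
  have h1 := sum_erase_add S (fun k : Fin n => (k : ℕ)) hi
  rw [e, sum_insert (fun h => hj (mem_erase.1 h).2)]
  omega

lemma weight_lt {i j : Fin n} (hij : (i : ℕ) + 1 = j) {Δ : Finset (Finset (Fin n))}
    {S : Finset (Fin n)} (hS : S ∈ Δ) (hi : i ∈ S) (hj : j ∉ S) (hn : sw i j S ∉ Δ) :
    weight Δ < weight (shiftOne i j Δ) := by
  rw [weight, weight, shiftOne, sum_image (mv_injOn i j Δ)]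
  refine sum_lt_sum (fun T _ => ?_) ⟨S, hS, ?_⟩
  · unfold mv
    split_ifs with h
    · rw [weight_sw hij h.1 h.2.1]
      exact Nat.le_succ _
    · exact le_rfl
  · rw [mv, if_pos ⟨hi, hj, hn⟩, weight_sw hij hi hj]
    exact Nat.lt_succ_self _

lemma isShifted_of_neighbours {Δ : Finset (Finset (Fin n))}
    (h : ∀ i j : Fin n, (i : ℕ) + 1 = j → ∀ S ∈ Δ, i ∈ S → j ∉ S → sw i j S ∈ Δ) :
    IsShifted Δ := by
  have hsw : ∀ i j : Fin n, (i : ℕ) + 1 = j → ∀ S ∈ Δ, i ∈ S → j ∉ S →
      insert j (S.erase i) ∈ Δ := by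
    intro i j hij S hS hi hj
    convert h i j hij S hS hi hj using 1
    ext k
    by_cases h1 : k = i
    · subst h1; simp [hj, ne_of_succ hij]
    by_cases h2 : k = j
    · subst h2; simp [hi]
    simp [mem_sw_of_ne h1 h2, h1, h2]
  suffices ∀ m : ℕ, ∀ i j : Fin n, (i : ℕ) + (m + 1) = j → ∀ S ∈ Δ, i ∈ S → j ∉ S →
      insert j (S.erase i) ∈ Δ by
    intro S hS i hi j hlt hj
    refine this ((j : ℕ) - i - 1) i j ?_ S hS hi hj
    have : (i : ℕ) < j := hlt
    omega
  intro m
  induction m with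
  | zero => exact fun i j hij => hsw i j (by omega)
  | succ m ih =>
    intro i j hij S hS hi hj
    obtain ⟨l, hl⟩ : ∃ l : Fin n, (l : ℕ) = i + (m + 1) :=
      ⟨⟨i + (m + 1), by have := j.2; omega⟩, rfl⟩
    have hil : i ≠ l := fun e => by subst e; omega
    have hlj : l ≠ j := fun e => by subst e; omega
    have hij' : i ≠ j := fun e => by subst e; omega
    by_cases hlS : l ∈ S
    · have h1 := hsw l j (by omega) S hS hlS hj
      have h2 := ih i l hl.symm _ h1 (by simp [hi, hil]) (by simp [hlj])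
      convert h2 using 1
      ext k
      simp only [mem_insert, mem_erase]
      by_cases k = l <;> by_cases k = i <;> by_cases k = j <;> simp_all
    · have h1 := ih i l hl.symm S hS hi hlS
      have h2 := hsw l j (by omega) _ h1 (by simp) (by simp [hlj.symm, hj])
      convert h2 using 1
      ext k
      simp only [mem_insert, mem_erase]
      by_cases k = l <;> by_cases k = i <;> by_cases k = j <;> simp_all

lemma hdim_le_shiftOne (F : Type*) [Field F] {i j : Fin n} (hij : (i : ℕ) + 1 = j)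
    {Δ : Finset (Finset (Fin n))} (hΔ : IsDown Δ) (p d : ℕ) :
    hdim F Δ p d ≤ hdim F (shiftOne i j Δ) p d := by
  refine hdim_le_of_rk_le (fun e => (level_shiftOne i j Δ e).symm) (fun q e => ?_) p d
  rw [rk_succ, rk_succ]
  exact rankAt_shift_le hij hΔ (isDown_shiftOne hΔ) (isSh_shiftOne i j Δ) q e

end Shift

open Shift in
/-- Every simplicial complex has a shifted one with the same number of faces in each size and Betti
numbers (of the quotient modulo the squares) at least as large, over every field. -/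
theorem exists_shifted (F : Type*) [Field F] (Δ : Finset (Finset (Fin n))) (hΔ : IsDown Δ) :
    ∃ Δ' : Finset (Finset (Fin n)), IsDown Δ' ∧ IsShifted Δ' ∧ (∀ d, (level Δ' d).card = (level Δ d).card) ∧
      ∀ p d, hdim F Δ p d ≤ hdim F Δ' p d := by
  induction hN : weight (univ : Finset (Finset (Fin n))) - weight Δ
    using Nat.strong_induction_on generalizing Δ with
  | _ N ih =>
    by_cases h : ∀ i j : Fin n, (i : ℕ) + 1 = j → ∀ S ∈ Δ, i ∈ S → j ∉ S → sw i j S ∈ Δ
    · exact ⟨Δ, hΔ, isShifted_of_neighbours h, fun _ => rfl, fun _ _ => le_rfl⟩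
    simp only [not_forall] at h
    obtain ⟨i, j, hij, S, hS, hi, hj, hn⟩ := h
    have hlt := weight_lt hij hS hi hj hn
    have hle := weight_le (shiftOne i j Δ)
    obtain ⟨Δ', h1, h2, h3, h4⟩ := ih _ (by omega) (shiftOne i j Δ) (isDown_shiftOne hΔ) rfl
    exact ⟨Δ', h1, h2, fun d => (h3 d).trans (level_shiftOne i j Δ d),
      fun p d => (hdim_le_shiftOne F hij hΔ p d).trans (h4 p d)⟩

end Vale.Agent.P200.Betti
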