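import Vale.Agent.P200.Betti.Bound
import Vale.Agent.P200.Betti.MonomialSide
import Vale.Agent.P200.Betti.Shift
import Vale.Agent.P200.Box.LexPlusPowers
import Vale.Agent.P200.Quad.Final

/-!
The lex-plus-powers bound on Betti numbers for ideals containing a full regular sequence of
quadrics.
-/

namespace Vale.Agent.P200.Betti

open MvPolynomial Module
open Vale.Agent.P200.Quad (ind ind_apply degree_ind)

universe u

variable {K : Type u} [Field K] {n : ℕ}

lemma isLexCompl_outside {T : ℕ → Finset (Fin n →₀ ℕ)}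
    (hlex : ∀ d, ∀ e ∈ T d, ∀ e' : Fin n →₀ ℕ, e'.degree = d → (∀ i, e i < 2) → (∀ i, e' i < 2) →
      toLex e < toLex e' → e' ∈ T d) :
    IsLexCompl (outside T) := by
  intro S S' hcard ⟨i, hiS, hiS', hlow⟩ hS
  rw [mem_outside] at hS ⊢
  intro hS'
  apply hS
  have hlt : ∀ (A : Finset (Fin n)) j, ind A j < 2 := fun A j => by
    rw [ind_apply]; split_ifs <;> omega
  refine hlex _ (ind S') (hcard ▸ hS') (ind S) (degree_ind S) (hlt S') (hlt S) ?_
  refine Finsupp.Lex.lt_iff.2 ⟨i, fun j hj => ?_, ?_⟩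
  · simp only [ofLex_toLex, ind_apply, hlow j hj]
  · simp [ind_apply, hiS, hiS']

/-- The lex-plus-squares ideal has the greatest Betti numbers, given the combinatorial step. -/
theorem exists_lpp_betti
    (hlexmax : ∀ {Δ Δl : Finset (Finset (Fin n))}, IsDown Δ → IsShifted Δ → IsDown Δl →
      IsLexCompl Δl → (∀ d, (level Δl d).card = (level Δ d).card) →
      ∀ p d, hdim K Δ p d ≤ hdim K Δl p d)
    {f : Fin n → MvPolynomial (Fin n) K} (hf : ∀ i, (f i).IsHomogeneous 2)
    (hreg : RegList ⊥ (List.ofFn f)) {I : Ideal (MvPolynomial (Fin n) K)} (hI : HomogI I)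
    (hfI : ∀ i, f i ∈ I) :
    ∃ T : ℕ → Finset (Fin n →₀ ℕ), (∀ d,
      (∀ e ∈ T d, e.degree = d) ∧
      (∀ e : Fin n →₀ ℕ, e.degree = d → (∃ i, 2 ≤ e i) → e ∈ T d) ∧
      (∀ e ∈ T d, ∀ e' : Fin n →₀ ℕ, e'.degree = d → (∀ i, e i < 2) → (∀ i, e' i < 2) →
        toLex e < toLex e' → e' ∈ T d) ∧
      (T d).card = finrank K ↥(homogeneousSubmodule (Fin n) K d ⊓ I.restrictScalars K) ∧
      ∀ e ∈ T d, ∀ v : Fin n, e + Finsupp.single v 1 ∈ T (d + 1)) ∧
    ∀ p j, betti I p j ≤
      betti (Ideal.span ((fun e => monomial e (1 : K)) '' {e | ∃ d, e ∈ T d})) p j := by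
  obtain ⟨s, hs, hd⟩ := Quad.exists_monomialIdeal (fun L _ => Quad.artinian L) le_rfl hf hreg hI hfI
  obtain ⟨T, hT⟩ := Box.exists_lpp K le_rfl (a := fun _ => 2) (fun _ _ _ => le_rfl) s hs
  have hT' : ∀ d,
      (∀ e ∈ T d, e.degree = d) ∧
      (∀ e : Fin n →₀ ℕ, e.degree = d → (∃ i, 2 ≤ e i) → e ∈ T d) ∧
      (∀ e ∈ T d, ∀ e' : Fin n →₀ ℕ, e'.degree = d → (∀ i, e i < 2) → (∀ i, e' i < 2) →
        toLex e < toLex e' → e' ∈ T d) ∧
      (T d).card = finrank K ↥(homogeneousSubmodule (Fin n) K d ⊓ I.restrictScalars K) ∧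
      ∀ e ∈ T d, ∀ v : Fin n, e + Finsupp.single v 1 ∈ T (d + 1) := fun d => by
    obtain ⟨h1, h2, h3, h4, h5⟩ := hT d
    exact ⟨h1, fun e he hx => h2 e he (by simpa using hx),
      fun e he e' he' ha hb => h3 e he e' he' (by simpa using ha) (by simpa using hb),
      h4.trans (hd d), h5⟩
  refine ⟨T, hT', fun p j => ?_⟩
  by_cases hpj : p ≤ j
  swap
  · simp [betti, hpj]
  obtain ⟨d, rfl⟩ := Nat.exists_eq_add_of_le hpj
  obtain ⟨Δ, hdown, hlev, hrk⟩ := exists_rank_bound hf hreg hI hfI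
  have hdeg := fun d => (hT' d).1
  have hsq := fun d => (hT' d).2.1
  have hcl := fun d => (hT' d).2.2.2.2
  obtain ⟨Δs, hs1, hs2, hs3, hs4⟩ := exists_shifted K Δ hdown
  have hlevT : ∀ e, (level (outside T) e).card = (level Δs e).card := fun e => by
    have h1 := card_level_outside K (hdeg e) (hsq e)
    have h2 := hlev e
    have h3 : (T e).card = finrank K (degPart e I) := (hT' e).2.2.2.1
    rw [hs3]
    omega
  calc betti I p (p + d) ≤ hdim K Δ p d := by
        rw [betti_eq, hdim, card_cell]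
        have h2 := hlev d
        have hr : ∀ q e, rk K Δ q e ≤ rkI I q e := by
          intro q e
          cases q with
          | zero => simp
          | succ q => exact hrk q e
        have h3 := hr p d
        have h4 := hr (p + 1) (d - 1)
        rw [show finrank K (homogeneousSubmodule (Fin n) K d) - finrank K (degPart d I) =
          (level Δ d).card by omega]
        split_ifs <;> omega
    _ ≤ hdim K Δs p d := hs4 p d
    _ ≤ hdim K (outside T) p d := hlexmax hs1 hs2 (isDown_outside hcl)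
        (isLexCompl_outside fun e => (hT' e).2.2.1) hlevT p d
    _ = betti (Ideal.span ((fun e => monomial e (1 : K)) '' {e | ∃ d, e ∈ T d})) p (p + d) :=
      (betti_setIdeal hdeg hsq hcl p d).symm

end Vale.Agent.P200.Betti
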