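import Vale.Agent.P200.Betti.Defs

/-!
Exchanging two neighbouring variables in the complex of a squarefree monomial quotient.
-/

namespace Vale.Agent.P200.Betti.Shift

open Finset

variable {n : ℕ} {F : Type*} [Field F]

/-- A pair of exterior positions and a squarefree monomial. -/
abbrev Pair (n : ℕ) : Type := Finset (Fin n) × Finset (Fin n)

/-- The exchange of the two variables on a set. -/
def sw (i j : Fin n) (S : Finset (Fin n)) : Finset (Fin n) := S.map (Equiv.swap i j).toEmbedding

lemma mem_sw {i j k : Fin n} {S : Finset (Fin n)} : k ∈ sw i j S ↔ Equiv.swap i j k ∈ S := by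
  simp [sw, Finset.mem_map_equiv]

@[simp] lemma mem_sw_left {i j : Fin n} {S : Finset (Fin n)} : i ∈ sw i j S ↔ j ∈ S := by
  simp [mem_sw]

@[simp] lemma mem_sw_right {i j : Fin n} {S : Finset (Fin n)} : j ∈ sw i j S ↔ i ∈ S := by
  simp [mem_sw]

lemma mem_sw_of_ne {i j k : Fin n} {S : Finset (Fin n)} (h1 : k ≠ i) (h2 : k ≠ j) :
    k ∈ sw i j S ↔ k ∈ S := by
  simp [mem_sw, Equiv.swap_apply_of_ne_of_ne h1 h2]

@[simp] lemma sw_sw (i j : Fin n) (S : Finset (Fin n)) : sw i j (sw i j S) = S := by
  ext k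
  simp [mem_sw]

@[simp] lemma card_sw (i j : Fin n) (S : Finset (Fin n)) : (sw i j S).card = S.card := card_map _

lemma sw_eq_self {i j : Fin n} {S : Finset (Fin n)} (h : i ∈ S ↔ j ∈ S) : sw i j S = S := by
  ext k
  by_cases hi : k = i
  · subst hi; simp [h]
  by_cases hj : k = j
  · subst hj; simp [h]
  exact mem_sw_of_ne hi hj

lemma sw_mono {i j : Fin n} {S T : Finset (Fin n)} (h : S ⊆ T) : sw i j S ⊆ sw i j T :=
  map_subset_map.2 h

/-- The exchange on pairs. -/
def swp (i j : Fin n) (z : Pair n) : Pair n := (sw i j z.1, sw i j z.2)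

@[simp] lemma swp_swp (i j : Fin n) (z : Pair n) : swp i j (swp i j z) = z := by simp [swp]

/-- The sign of the exchange of two neighbouring variables. -/
def eps (i j : Fin n) (S : Finset (Fin n)) : ℤ := if i ∈ S ∧ j ∈ S then -1 else 1

lemma eps_mul_self (i j : Fin n) (S : Finset (Fin n)) : (eps i j S : F) * (eps i j S : F) = 1 := by
  unfold eps; split_ifs <;> simp

lemma eps_sw (i j : Fin n) (S : Finset (Fin n)) : eps i j (sw i j S) = eps i j S := by
  simp [eps, and_comm]

variable (F)

/-- The boundary on all pairs. -/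
noncomputable def dd : (Pair n → F) →ₗ[F] (Pair n → F) where
  toFun f := fun y => ∑ k ∈ y.2 \ y.1, (sgn k y.2 : F) * f (insert k y.1, y.2.erase k)
  map_add' f g := by
    funext y
    simp only [Pi.add_apply, mul_add, sum_add_distrib]
  map_smul' c f := by
    funext y
    simp only [Pi.smul_apply, smul_eq_mul, RingHom.id_apply, mul_sum]
    exact sum_congr rfl fun k _ => mul_left_comm _ _ _

/-- The exchange on functions of pairs. -/
noncomputable def sig (i j : Fin n) : (Pair n → F) →ₗ[F] (Pair n → F) where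
  toFun f := fun z => (eps i j z.2 : F) * f (swp i j z)
  map_add' f g := by
    funext y
    simp only [Pi.add_apply, mul_add]
  map_smul' c f := by
    funext y
    simp only [Pi.smul_apply, smul_eq_mul, RingHom.id_apply]
    exact mul_left_comm _ _ _

open Classical in
/-- Restriction of a function of pairs to a set of pairs. -/
noncomputable def keep (Z : Pair n → Prop) : (Pair n → F) →ₗ[F] (Pair n → F) where
  toFun f := fun z => if Z z then f z else 0
  map_add' f g := by
    funext y
    by_cases h : Z y <;> simp [h]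
  map_smul' c f := by
    funext y
    by_cases h : Z y <;> simp [h]

/-- The pairs whose monomial lies in `Δ`. -/
noncomputable def prj (Δ : Finset (Finset (Fin n))) : (Pair n → F) →ₗ[F] (Pair n → F) :=
  keep F fun z => z.2 ∈ Δ

variable {F}

lemma dd_apply (f : Pair n → F) (y : Pair n) :
    dd F f y = ∑ k ∈ y.2 \ y.1, (sgn k y.2 : F) * f (insert k y.1, y.2.erase k) := rfl

lemma sig_apply (i j : Fin n) (f : Pair n → F) (z : Pair n) :
    sig F i j f z = (eps i j z.2 : F) * f (swp i j z) := rfl

open Classical in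
lemma keep_apply (Z : Pair n → Prop) (f : Pair n → F) (z : Pair n) :
    keep F Z f z = if Z z then f z else 0 := rfl

open Classical in
lemma prj_apply (Δ : Finset (Finset (Fin n))) (f : Pair n → F) (z : Pair n) :
    prj F Δ f z = if z.2 ∈ Δ then f z else 0 := by
  rw [prj, keep_apply]
  congr

lemma prj_dd_prj {Δ : Finset (Finset (Fin n))} (hΔ : IsDown Δ) (f : Pair n → F) :
    prj F Δ (dd F (prj F Δ f)) = prj F Δ (dd F f) := by
  funext y
  simp only [prj_apply]
  split_ifs with h
  · simp only [dd_apply]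
    refine sum_congr rfl fun k _ => ?_
    rw [prj_apply, if_pos (hΔ _ h _ (erase_subset _ _))]
  · rfl

lemma sgn_erase (k : Fin n) (S : Finset (Fin n)) : sgn k (S.erase k) = sgn k S := by
  unfold sgn
  congr 2
  ext a
  simp only [mem_filter, mem_erase]
  constructor
  · exact fun h => ⟨h.1.2, h.2⟩
  · exact fun h => ⟨⟨ne_of_lt h.2, h.1⟩, h.2⟩

section Neighbours

variable {i j : Fin n} (hij : (i : ℕ) + 1 = j)

include hij

lemma ne_of_succ : i ≠ j := fun h => by subst h; omega

lemma swap_lt_iff {k a : Fin n} (h1 : k ≠ i) (h2 : k ≠ j) : Equiv.swap i j a < k ↔ a < k := by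
  have h1' : (k : ℕ) ≠ i := fun h => h1 (Fin.ext h)
  have h2' : (k : ℕ) ≠ j := fun h => h2 (Fin.ext h)
  rw [Equiv.swap_apply_def]
  split_ifs with ha hb
  · subst ha; simp only [Fin.lt_def]; omega
  · subst hb; simp only [Fin.lt_def]; omega
  · rfl

lemma sgn_sw_of_ne {k : Fin n} (h1 : k ≠ i) (h2 : k ≠ j) (S : Finset (Fin n)) :
    sgn k (sw i j S) = sgn k S := by
  unfold sgn
  have : (sw i j S).filter (fun a => a < k) = (S.filter fun a => a < k).map
      (Equiv.swap i j).toEmbedding := by
    ext a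
    simp only [mem_filter, mem_sw, mem_map_equiv, Equiv.symm_swap, swap_lt_iff hij h1 h2]
  rw [this, card_map]

lemma sgn_sw_left (S : Finset (Fin n)) : sgn i (sw i j S) = sgn i S := by
  unfold sgn
  congr 2
  ext a
  simp only [mem_filter]
  constructor
  · rintro ⟨ha, hlt⟩
    refine ⟨(mem_sw_of_ne (ne_of_lt hlt) ?_).1 ha, hlt⟩
    exact fun h => by subst h; simp only [Fin.lt_def] at hlt; omega
  · rintro ⟨ha, hlt⟩
    refine ⟨(mem_sw_of_ne (ne_of_lt hlt) ?_).2 ha, hlt⟩
    exact fun h => by subst h; simp only [Fin.lt_def] at hlt; omega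

lemma sgn_right (S : Finset (Fin n)) : sgn j S = (if i ∈ S then -1 else 1) * sgn i S := by
  unfold sgn
  split_ifs with h
  · have : S.filter (fun a => a < j) = insert i (S.filter fun a => a < i) := by
      ext a
      simp only [mem_filter, mem_insert, Fin.lt_def]
      constructor
      · rintro ⟨ha, hlt⟩
        by_cases he : a = i
        · exact Or.inl he
        · exact Or.inr ⟨ha, by have : (a : ℕ) ≠ i := fun e => he (Fin.ext e); omega⟩
      · rintro (rfl | ⟨ha, hlt⟩)
        · exact ⟨h, by omega⟩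
        · exact ⟨ha, by omega⟩
    rw [this, card_insert_of_notMem (by simp), pow_succ]
    ring
  · rw [one_mul]
    congr 2
    ext a
    simp only [mem_filter, Fin.lt_def]
    constructor
    · rintro ⟨ha, hlt⟩
      have : (a : ℕ) ≠ i := fun e => h (Fin.ext e ▸ ha)
      exact ⟨ha, by omega⟩
    · rintro ⟨ha, hlt⟩
      exact ⟨ha, by omega⟩

lemma sgn_sig {k : Fin n} {S : Finset (Fin n)} (hk : k ∈ S) :
    sgn k S * eps i j (S.erase k) = eps i j S * sgn (Equiv.swap i j k) (sw i j S) := by
  have hne := ne_of_succ hij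
  by_cases h1 : k = i
  · subst h1
    rw [Equiv.swap_apply_left, sgn_right hij (sw k j S), sgn_sw_left hij]
    by_cases hj : j ∈ S <;> simp [eps, hk, hj]
  by_cases h2 : k = j
  · subst h2
    rw [Equiv.swap_apply_right, sgn_sw_left hij, sgn_right hij S]
    by_cases hi : i ∈ S <;> simp [eps, hk, hi]
  rw [Equiv.swap_apply_of_ne_of_ne h1 h2, sgn_sw_of_ne hij h1 h2]
  have e : eps i j (S.erase k) = eps i j S := by
    simp [eps, mem_erase, Ne.symm h1, Ne.symm h2]
  rw [e]
  ring

lemma dd_sig (f : Pair n → F) : dd F (sig F i j f) = sig F i j (dd F f) := by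
  funext y
  rw [sig_apply, dd_apply, dd_apply, mul_sum]
  refine sum_equiv (Equiv.swap i j) (fun k => by simp [swp, mem_sw]) fun k hk => ?_
  rw [sig_apply]
  have e1 : swp i j (insert k y.1, y.2.erase k) =
      (insert (Equiv.swap i j k) (swp i j y).1, (swp i j y).2.erase (Equiv.swap i j k)) := by
    unfold swp sw
    simp only [map_insert, map_erase, Equiv.coe_toEmbedding]
  rw [e1, ← mul_assoc, ← mul_assoc]
  congr 1
  have := congrArg (fun t : ℤ => (t : F)) (sgn_sig hij (mem_sdiff.1 hk).1)
  simp only [Int.cast_mul] at this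
  exact this

end Neighbours

/-- The cells of the second kind: those on which the change of basis is trivial. -/
def Snd (i j : Fin n) (z : Pair n) : Prop :=
  (i ∈ z.2 ∧ ¬(j ∈ z.1 ∧ j ∈ z.2)) ∨ (i ∈ z.1 ∧ i ∉ z.2 ∧ j ∉ z.1 ∧ j ∉ z.2)

/-- The cells of the first kind moved by the exchange. -/
def Fst (i j : Fin n) (z : Pair n) : Prop :=
  (j ∈ z.2 ∧ i ∉ z.2) ∨ (j ∈ z.1 ∧ i ∉ z.1 ∧ (i ∈ z.2 → j ∈ z.2))

lemma Fst.not_snd {i j : Fin n} {z : Pair n} (h : Fst i j z) : ¬ Snd i j z := by
  unfold Fst Snd at *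
  tauto

lemma Fst.snd_swp {i j : Fin n} {z : Pair n} (h : Fst i j (swp i j z)) : Snd i j z := by
  simp only [Fst, Snd, swp, mem_sw_left, mem_sw_right] at *
  tauto

lemma fst_swp_or {i j : Fin n} {z : Pair n} (h : Snd i j z) :
    Fst i j (swp i j z) ∨ (i ∉ z.1 ∧ j ∉ z.1 ∧ i ∈ z.2 ∧ j ∈ z.2) := by
  simp only [Fst, Snd, swp, mem_sw_left, mem_sw_right] at *
  tauto

lemma not_fst_of_both {i j : Fin n} {z : Pair n} (hb : j ∉ z.1) (hc : i ∈ z.2) :
    ¬ Fst i j z := by
  unfold Fst
  tauto

lemma iff_of_neither {i j : Fin n} {z : Pair n} (h1 : ¬ Fst i j z) (h2 : ¬ Snd i j z) :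
    (i ∈ z.1 ↔ j ∈ z.1) ∧ (i ∈ z.2 ↔ j ∈ z.2) ∧ (i ∈ z.2 → i ∈ z.1) := by
  unfold Fst Snd at *
  tauto

lemma snd_pred {i j : Fin n} (hne : i ≠ j) {z : Pair n} {k : Fin n} (hk : k ∈ z.2 \ z.1)
    (h : Snd i j (insert k z.1, z.2.erase k)) : Snd i j z := by
  obtain ⟨hk2, hk1⟩ := mem_sdiff.1 hk
  unfold Snd at *
  simp only [mem_insert, mem_erase] at h
  by_cases h1 : k = i
  · subst h1
    simp [hne.symm, hk1, hk2] at h ⊢
    tauto
  by_cases h2 : k = j
  · subst h2
    simp [hne, hk1, hk2] at h ⊢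
    tauto
  simp [Ne.symm h1, Ne.symm h2] at h
  tauto

variable (F)

/-- The unipotent change of basis. -/
noncomputable def tm (i j : Fin n) : (Pair n → F) →ₗ[F] (Pair n → F) :=
  LinearMap.id + sig F i j ∘ₗ keep F (Fst i j)

variable {F}

open Classical in
lemma tm_apply (i j : Fin n) (f : Pair n → F) (z : Pair n) :
    tm F i j f z = f z + if Fst i j (swp i j z) then (eps i j z.2 : F) * f (swp i j z) else 0 := by
  simp [tm, sig_apply, keep_apply, mul_ite]

/-- Off the second kind the new vectors are carried to each other by the boundary. -/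
theorem dd_tm {i j : Fin n} (hij : (i : ℕ) + 1 = j) {f : Pair n → F}
    (hf : ∀ z, Snd i j z → f z = 0) :
    dd F (tm F i j f) = tm F i j (keep F (fun z => ¬ Snd i j z) (dd F f)) := by
  classical
  have hne := ne_of_succ hij
  have key : ∀ z, ¬ Snd i j z → dd F (tm F i j f) z = dd F f z := by
    intro z hz
    rw [dd_apply, dd_apply]
    refine sum_congr rfl fun k hk => ?_
    rw [tm_apply, if_neg, add_zero]
    exact fun h => hz (snd_pred hne hk h.snd_swp)
  funext z
  rw [tm_apply, keep_apply, keep_apply]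
  by_cases hz : Snd i j z
  swap
  · rw [key z hz, if_pos hz, if_neg (fun h => hz (Fst.snd_swp h)), add_zero]
  rw [if_neg (not_not.2 hz), zero_add]
  rcases fst_swp_or hz with hP | ⟨ha, hb, hc, he⟩
  · rw [if_pos hP, if_pos (Fst.not_snd hP), ← key _ (Fst.not_snd hP)]
    have hs := congrFun (dd_sig hij (tm F i j f)) z
    rw [sig_apply] at hs
    rw [← hs, dd_apply, dd_apply]
    refine sum_congr rfl fun k hk => ?_
    rw [sig_apply]
    set w : Pair n := (insert k z.1, z.2.erase k)
    congr 1
    have hw : ¬(i ∈ w.1 ∧ j ∈ w.1 ∧ i ∈ w.2 ∧ j ∈ w.2) := by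
      rintro ⟨a1, b1, c1, e1⟩
      simp only [w, mem_insert, mem_erase] at a1 b1 c1 e1
      have a2 : i ∈ z.1 := a1.resolve_left c1.1
      have b2 : j ∈ z.1 := b1.resolve_left e1.1
      simp only [Fst, swp, mem_sw_left, mem_sw_right] at hP
      tauto
    rw [tm_apply, tm_apply, swp_swp, show (swp i j w).2 = sw i j w.2 from rfl, eps_sw]
    by_cases hw1 : Fst i j (swp i j w)
    · have hs2 := hw1.snd_swp
      rw [if_pos hw1, if_neg (fun h : Fst i j w => h.not_snd hs2), hf w hs2, zero_add, add_zero]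
    · rw [if_neg hw1, add_zero]
      by_cases hw2 : Fst i j w
      · have hs2 : Snd i j (swp i j w) := Fst.snd_swp (by rwa [swp_swp])
        rw [if_pos hw2, hf _ hs2, zero_add, ← mul_assoc, eps_mul_self, one_mul]
      · rw [if_neg hw2, add_zero]
        by_cases hw3 : Snd i j w
        · have hboth := (fst_swp_or hw3).resolve_left hw1
          have h2 : sw i j w.2 = w.2 := sw_eq_self (by tauto)
          have h1 : sw i j w.1 = w.1 := sw_eq_self (by tauto)
          have hwe : swp i j w = w := Prod.ext h1 h2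
          rw [hwe, hf _ hw3, mul_zero]
        · obtain ⟨h1, h2, h3⟩ := iff_of_neither hw2 hw3
          have hwe : swp i j w = w := Prod.ext (sw_eq_self h1) (sw_eq_self h2)
          rw [hwe, eps, if_neg (by tauto), Int.cast_one, one_mul]
  · rw [if_neg]
    swap
    · have h1 : swp i j z = z := Prod.ext (sw_eq_self (by tauto)) (sw_eq_self (by tauto))
      rw [h1]
      exact not_fst_of_both hb hc
    rw [dd_apply, sum_eq_add_of_mem i j (mem_sdiff.2 ⟨hc, ha⟩) (mem_sdiff.2 ⟨he, hb⟩) hne]
    · set wi : Pair n := (insert i z.1, z.2.erase i) with hwi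
      set wj : Pair n := (insert j z.1, z.2.erase j) with hwj
      have hPi : Fst i j wi := Or.inl ⟨mem_erase.2 ⟨hne.symm, he⟩, notMem_erase _ _⟩
      have hji : swp i j wj = wi := by
        have h1 : sw i j z.1 = z.1 := sw_eq_self (by tauto)
        have h2 : sw i j z.2 = z.2 := sw_eq_self (by tauto)
        rw [hwi, hwj]
        unfold swp sw at *
        simp only [map_insert, map_erase, h1, h2, Equiv.coe_toEmbedding, Equiv.swap_apply_right]
      have hsj : Snd i j wj := Fst.snd_swp (hji ▸ hPi)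
      rw [tm_apply, tm_apply, hji, if_pos hPi, hf wj hsj, zero_add]
      have hij' : swp i j wi = wj := by rw [← hji, swp_swp]
      rw [hij', if_neg (fun h : Fst i j wj => h.not_snd hsj), add_zero]
      have e1 : eps i j wj.2 = 1 := by simp [eps, hwj]
      rw [e1, sgn_right hij z.2, if_pos hc]
      push_cast
      ring
    · intro k hk hkne
      obtain ⟨hki, hkj⟩ := hkne
      set w : Pair n := (insert k z.1, z.2.erase k)
      have a1 : i ∉ w.1 := by simp [w, ha, Ne.symm hki]
      have b1 : j ∉ w.1 := by simp [w, hb, Ne.symm hkj]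
      have c1 : i ∈ w.2 := by simp [w, hc, Ne.symm hki]
      have e1 : j ∈ w.2 := by simp [w, he, Ne.symm hkj]
      have hwe : swp i j w = w := Prod.ext (sw_eq_self (by tauto)) (sw_eq_self (by tauto))
      rw [tm_apply, hwe, if_neg (not_fst_of_both b1 c1), add_zero,
        hf w (Or.inl ⟨c1, fun h => b1 h.1⟩), mul_zero]

end Vale.Agent.P200.Betti.Shift
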