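import Vale.Agent.P200.Quad.Artinian
import Vale.Agent.P200.Betti.Defs

/-!
Words in increasing order and the basis they give.
-/

namespace Vale.Agent.P200.Betti

open MvPolynomial Module
open scoped TensorProduct
open Vale.Agent.P200.Quad (Quo quoDeg mkA act act_anticomm word word_cons word_perm wordSet piece
  wspan wspan_eq_piece wordSet_mem_piece tmul_mem_piece word_mem_piece mkA_surjective exists_compA
  finrank_span_one_tmul finite_quoDeg)

universe u

variable {K : Type u} [Field K] {n : ℕ} {D : Type u} [DivisionRing D] [Algebra K D]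
variable {f : Fin n → MvPolynomial (Fin n) K} {g : Fin n → Fin n → D}
variable (hanti : ∀ k l, k ≠ l → ∀ i j, g k i * g l j + g l j * g k i = 0)

include hanti in
lemma act_word_sorted (k : Fin n) : ∀ (l : List (Fin n)), l.Pairwise (· ≤ ·) → k ∉ l →
    act f g k (word f g l) =
      ((-1 : ℤ) ^ l.countP (· < k)) • word f g (l.orderedInsert (· ≤ ·) k)
  | [], _, _ => by simp [word_cons]
  | a :: l, hl, hk => by
    obtain ⟨hka, hkl⟩ := not_or.1 (List.mem_cons.not.1 hk)
    obtain ⟨ha, hl'⟩ := List.pairwise_cons.1 hl
    by_cases h : k ≤ a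
    · rw [List.orderedInsert_cons, if_pos h,
        List.countP_eq_zero.2 fun b hb => by
          rcases List.mem_cons.1 hb with rfl | hb
          · simpa using h
          · simpa using h.trans (ha b hb),
        pow_zero, one_smul, word_cons f g k]
    · rw [List.orderedInsert_cons, if_neg h, List.countP_cons_of_pos (by simpa using not_le.1 h),
        word_cons, word_cons,
        eq_neg_of_add_eq_zero_left (act_anticomm f g hanti (Ne.symm hka) _),
        act_word_sorted k l hl' hkl, map_zsmul, pow_succ, mul_neg_one, neg_smul]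

/-- The word of a set in increasing order. -/
noncomputable def sortWord (f : Fin n → MvPolynomial (Fin n) K) (g : Fin n → Fin n → D)
    (S : Finset (Fin n)) : D ⊗[K] Quo f :=
  word f g (S.sort (· ≤ ·))

include hanti in
lemma act_sortWord {k : Fin n} {S : Finset (Fin n)} (hk : k ∉ S) :
    act f g k (sortWord f g S) = sgn k S • sortWord f g (insert k S) := by
  have hs : (insert k S).sort (· ≤ ·) = (S.sort (· ≤ ·)).orderedInsert (· ≤ ·) k := by
    refine List.Perm.eq_of_pairwise' (r := (· ≤ ·)) (Finset.pairwise_sort _ _)
      ((Finset.pairwise_sort _ _).orderedInsert k _) ?_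
    refine List.perm_of_nodup_nodup_toFinset_eq (Finset.sort_nodup _ _) ?_ ?_
    · rw [(List.perm_orderedInsert _ k _).nodup_iff]
      simp [hk]
    · ext a
      simp [List.mem_orderedInsert]
  rw [sortWord, sortWord, hs, act_word_sorted hanti k _ (Finset.pairwise_sort _ _) (by simp [hk]),
    sgn]
  congr 2
  rw [List.countP_eq_length_filter,
    ← List.toFinset_card_of_nodup ((Finset.sort_nodup _ _).filter _)]
  congr 1
  ext a
  simp

include hanti in
lemma exists_sortWord (S : Finset (Fin n)) :
    ∃ e : D, e ≠ 0 ∧ sortWord f g S = e • wordSet f g S :=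
  word_perm f g hanti (Finset.sort_perm_toList S (· ≤ ·))

variable {z : Fin n → Fin n → D} {a : Fin n → Fin n → Fin n → K}
  (ha : ∀ l, f l = ∑ i, ∑ j, a l i j • (X i * X j : MvPolynomial (Fin n) K))
  (hsq : ∀ k i, g k i * g k i = ∑ l, a l i i • z k l)
  (hpol : ∀ k i j, g k i * g k j + g k j * g k i = ∑ l, (a l i j + a l j i) • z k l)
  {E : Fin n → Fin n → D} (hE : ∀ i j, ∑ k, E i k * g k j = if i = j then 1 else 0)

include hanti ha hsq hpol in
lemma act_sortWord_mem {k : Fin n} {S : Finset (Fin n)} (hk : k ∈ S) :
    act f g k (sortWord f g S) = 0 :=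
  Quad.act_word_of_mem f g hanti z a ha hsq hpol ((Finset.mem_sort _).2 hk)

include hanti in
lemma sortWord_mem_piece (S : Finset (Fin n)) : sortWord f g S ∈ piece f S.card := by
  obtain ⟨e, -, he⟩ := exists_sortWord (f := f) hanti S
  exact he ▸ Submodule.smul_mem _ _ (wordSet_mem_piece f g S)

/-- The projection on a degree. -/
theorem exists_proj (hI : HomogI (Ideal.span (Set.range f))) (d : ℕ) :
    ∃ P : D ⊗[K] Quo f →ₗ[D] D ⊗[K] Quo f,
      (∀ e, ∀ v ∈ piece f e, P v = if e = d then v else 0) ∧
      ∀ u, P ((1 : D) ⊗ₜ[K] mkA f u) = (1 : D) ⊗ₜ[K] mkA f (homogeneousComponent d u) := by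
  obtain ⟨π, hπ⟩ := exists_compA f hI d
  refine ⟨TensorProduct.AlgebraTensorModule.map LinearMap.id π, ?_, fun u => by simp [hπ]⟩
  intro e v hv
  induction hv using Submodule.span_induction with
  | mem x hx =>
    obtain ⟨q, ⟨u, hu, rfl⟩, rfl⟩ := hx
    simp only [TensorProduct.AlgebraTensorModule.map_tmul, LinearMap.id_apply, hπ,
      homogeneousComponent_of_mem hu]
    by_cases h : e = d
    · simp [h]
    · simp [h, Ne.symm h]
  | zero => simp
  | add x y _ _ hx hy => rw [map_add, hx, hy]; split_ifs <;> simp
  | smul r x _ hx => rw [map_smul, hx]; split_ifs <;> simp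

include hanti ha hsq hpol hE in
/-- The increasing words form a basis. -/
theorem exists_basis (hI : HomogI (Ideal.span (Set.range f)))
    (hquo : ∀ d, finrank K (quoDeg f d) = n.choose d) :
    ∃ b : Basis (Finset (Fin n)) D (D ⊗[K] Quo f), (∀ S, b S = sortWord f g S) ∧
      ∀ d, Submodule.span D (b '' {S | S.card = d}) = piece f d := by
  classical
  choose P hP _ using fun d => exists_proj (K := K) (D := D) hI d
  choose e he0 he using fun S => exists_sortWord (f := f) hanti S
  have hpiece : ∀ d, Submodule.span D (sortWord f g '' {S | S.card = d}) = piece f d := by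
    intro d
    rw [← wspan_eq_piece f g hanti z a ha hsq hpol E hE d, wspan]
    refine le_antisymm (Submodule.span_le.2 ?_) (Submodule.span_le.2 ?_)
    · rintro _ ⟨S, hS, rfl⟩
      rw [SetLike.mem_coe, he S]
      exact Submodule.smul_mem _ _ (Submodule.subset_span ⟨S, hS, rfl⟩)
    · rintro _ ⟨S, hS, rfl⟩
      rw [SetLike.mem_coe, show wordSet f g S = (e S)⁻¹ • sortWord f g S by
        rw [he S, inv_smul_smul₀ (he0 S)]]
      exact Submodule.smul_mem _ _ (Submodule.subset_span ⟨S, hS, rfl⟩)
  have hfin : ∀ d, FiniteDimensional K (quoDeg f d) := finite_quoDeg f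
  have hli : LinearIndependent D (sortWord f g) := by
    rw [Fintype.linearIndependent_iff]
    intro c hc S
    have hd : LinearIndependent D
        (fun T : {T : Finset (Fin n) // T.card = S.card} => sortWord f g T.1) := by
      rw [linearIndependent_iff_card_eq_finrank_span, Set.finrank]
      have : Submodule.span D (Set.range fun T : {T : Finset (Fin n) // T.card = S.card} =>
          sortWord f g T.1) = piece f S.card := by
        rw [← hpiece]
        congr 1
        ext x
        simp
      have hc : Fintype.card {T : Finset (Fin n) // T.card = S.card} = n.choose S.card := by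
        rw [Fintype.card_subtype, ← Finset.powerset_univ, ← Finset.powersetCard_eq_filter,
          Finset.card_powersetCard, Finset.card_univ, Fintype.card_fin]
      rw [this, piece, finrank_span_one_tmul, hquo, hc]
    have h2 := congrArg (P S.card) hc
    simp only [map_sum, map_smul, map_zero, hP _ _ _ (sortWord_mem_piece (f := f) hanti _),
      smul_ite, smul_zero] at h2
    rw [← Finset.sum_filter, Finset.sum_subtype _ (p := fun T : Finset (Fin n) => T.card = S.card)
      (by simp) fun T => c T • sortWord f g T] at h2
    exact Fintype.linearIndependent_iff.1 hd (fun T => c T.1) h2 ⟨S, rfl⟩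
  have hsp : ⊤ ≤ Submodule.span D (Set.range (sortWord f g)) := by
    intro v _
    induction v using TensorProduct.induction_on with
    | zero => exact zero_mem _
    | add x y hx hy => exact add_mem (hx trivial) (hy trivial)
    | tmul x q =>
      obtain ⟨u, rfl⟩ := mkA_surjective f q
      rw [← sum_homogeneousComponent u, map_sum, TensorProduct.tmul_sum]
      refine sum_mem fun d _ => ?_
      have h := tmul_mem_piece f x (q := mkA f (homogeneousComponent d u))
        ⟨_, homogeneousComponent_mem _ _, rfl⟩
      rw [← hpiece] at h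
      exact Submodule.span_mono (Set.image_subset_range _ _) h
  refine ⟨Basis.mk hli hsp, fun S => Basis.mk_apply hli hsp S, fun d => ?_⟩
  rw [Basis.coe_mk, hpiece]

end Vale.Agent.P200.Betti
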